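import Mathlib

/-!
Abstract elementary classes in relational vocabularies, categoricity, local boundedness.
-/

namespace Vale.Agent.P307

open Cardinal Set

universe u

/-- A structure for the relational vocabulary with symbols `σ` and arities `ar`. -/
structure Str (σ : Type u) (ar : σ → ℕ) where
  /-- The universe of the structure. -/
  U : Type u
  /-- The interpretation of each symbol. -/
  rel : ∀ s : σ, (Fin (ar s) → U) → Prop

variable {σ : Type u} {ar : σ → ℕ}

/-- The substructure on a subset. -/
abbrev Str.restr (M : Str σ ar) (A : Set M.U) : Str σ ar :=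
  ⟨A, fun s f => M.rel s fun i => (f i : M.U)⟩

/-- A bijection is an isomorphism if it preserves and reflects every relation. -/
def IsIso (M N : Str σ ar) (e : M.U ≃ N.U) : Prop :=
  ∀ s f, N.rel s (fun i => e (f i)) ↔ M.rel s f

/-- An abstract elementary class with Löwenheim–Skolem bound `l`. Here `strong M A` says that the
substructure of `M` on `A` belongs to the class and is a strong substructure of `M`. -/
structure AEC (σ : Type u) (ar : σ → ℕ) (l : Cardinal.{u}) where
  /-- Membership in the class. -/
  mem : Str σ ar → Prop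
  /-- The strong substructure relation. -/
  strong : ∀ M : Str σ ar, Set M.U → Prop
  mem_iso : ∀ (M N : Str σ ar) (e : M.U ≃ N.U), IsIso M N e → mem M → mem N
  strong_iso : ∀ (M N : Str σ ar) (e : M.U ≃ N.U), IsIso M N e →
    ∀ A, strong M A → strong N (e '' A)
  strong_mem : ∀ (M : Str σ ar) (A : Set M.U), strong M A → mem M ∧ mem (M.restr A)
  strong_refl : ∀ M : Str σ ar, mem M → strong M Set.univ
  strong_trans : ∀ (M : Str σ ar) (A B : Set M.U), B ⊆ A → strong M A →
    strong (M.restr A) ((fun x : A => (x : M.U)) ⁻¹' B) → strong M B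
  coherence : ∀ (M : Str σ ar) (A B : Set M.U), A ⊆ B → strong M A → strong M B →
    strong (M.restr B) ((fun x : B => (x : M.U)) ⁻¹' A)
  chain : ∀ (M : Str σ ar) (J : Type u) [LinearOrder J] [WellFoundedLT J] [Nonempty J]
    (A : J → Set M.U), (∀ i j, i ≤ j → A i ⊆ A j) → (∀ i, mem (M.restr (A i))) →
    (∀ i j, i ≤ j → strong (M.restr (A j)) ((fun x : A j => (x : M.U)) ⁻¹' A i)) →
    (⋃ i, A i) = Set.univ → mem M ∧ ∀ i, strong M (A i)
  smooth : ∀ (M : Str σ ar) (J : Type u) [LinearOrder J] [WellFoundedLT J] [Nonempty J]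
    (A : J → Set M.U), (∀ i j, i ≤ j → A i ⊆ A j) → (∀ i, strong M (A i)) →
    strong M (⋃ i, A i)
  ls : ∀ (M : Str σ ar) (A : Set M.U), mem M →
    ∃ B : Set M.U, A ⊆ B ∧ strong M B ∧ #B ≤ #A + l

/-- Categoricity: there is a model of the given size and any two are isomorphic. -/
def AEC.Categorical {l : Cardinal.{u}} (K : AEC σ ar l) (κ : Cardinal.{u}) : Prop :=
  (∃ M, K.mem M ∧ #M.U = κ) ∧
    ∀ M N, K.mem M → K.mem N → #M.U = κ → #N.U = κ → ∃ e, IsIso M N e

/-- Two elements are adjacent if they occur together in a tuple of some relation. -/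
def Adj (M : Str σ ar) (x y : M.U) : Prop :=
  ∃ s f, M.rel s f ∧ (∃ a, f a = x) ∧ ∃ b, f b = y

/-- At most `θ` elements are adjacent to more than `θ` elements. -/
def FewHubs (θ : Cardinal.{u}) (M : Str σ ar) : Prop :=
  #({x | θ < #({y | Adj M x y} : Set M.U)} : Set M.U) ≤ θ

/-- Finite tree depth: every element has a path of bounded length from a root, paths are closed
under prefixes, and adjacent elements lie on a common path. -/
def FiniteTreeDepth (M : Str σ ar) : Prop :=
  ∃ (n : ℕ) (p : M.U → List M.U), (∀ x, (p x).length ≤ n ∧ (p x).getLast? = some x) ∧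
    (∀ x, ∀ y ∈ p x, p y <+: p x) ∧ ∀ x y, Adj M x y → x ∈ p y ∨ y ∈ p x

end Vale.Agent.P307
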