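import Mathlib
import Vale.Agent.P307.Defs

/-!
Membership and strong substructures for subsets of an ambient structure.
-/

namespace Vale.Agent.P307

open Cardinal Set

universe u

variable {σ : Type u} {ar : σ → ℕ} {l : Cardinal.{u}}

theorem IsIso.refl (M : Str σ ar) : IsIso M M (Equiv.refl _) := fun _ _ => Iff.rfl

theorem IsIso.symm {M N : Str σ ar} {e : M.U ≃ N.U} (h : IsIso M N e) : IsIso N M e.symm :=
  fun s f => by
    rw [← h s]
    simp

theorem IsIso.trans {M N P : Str σ ar} {e : M.U ≃ N.U} {e' : N.U ≃ P.U} (h : IsIso M N e)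
    (h' : IsIso N P e') : IsIso M P (e.trans e') :=
  fun s f => (h' s fun i => e (f i)).trans (h s f)

namespace AEC

variable (K : AEC σ ar l) {M : Str σ ar}

/-- The substructure on `A` is in the class. -/
def MemOn (M : Str σ ar) (A : Set M.U) : Prop := K.mem (M.restr A)

/-- The substructure on `A` is strong in the one on `B`. -/
def LeOn (M : Str σ ar) (A B : Set M.U) : Prop :=
  A ⊆ B ∧ K.strong (M.restr B) ((fun x : B => (x : M.U)) ⁻¹' A)

/-- A subset of a subset, as a substructure of a substructure. -/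
def nested {U : Type u} (A C : Set U) (hC : C ⊆ A) : ((fun x : A => (x : U)) ⁻¹' C) ≃ C where
  toFun x := ⟨x.1.1, x.2⟩
  invFun y := ⟨⟨y.1, hC y.2⟩, y.2⟩
  left_inv _ := rfl
  right_inv _ := rfl

theorem leOn_mem {A B : Set M.U} (h : K.LeOn M A B) : K.MemOn M A ∧ K.MemOn M B :=
  ⟨K.mem_iso ((M.restr B).restr _) (M.restr A) (nested B A h.1) (fun _ _ => Iff.rfl)
    (K.strong_mem _ _ h.2).2, (K.strong_mem _ _ h.2).1⟩

theorem leOn_refl {A : Set M.U} (h : K.MemOn M A) : K.LeOn M A A :=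
  ⟨subset_rfl, by
    rw [show (fun x : A => (x : M.U)) ⁻¹' A = Set.univ from eq_univ_of_forall fun x => x.2]
    exact K.strong_refl _ h⟩

theorem leOn_univ {A : Set M.U} : K.LeOn M A Set.univ ↔ K.strong M A := by
  let e : (M.restr Set.univ).U ≃ M.U := Equiv.Set.univ M.U
  have he : IsIso (M.restr Set.univ) M e := fun _ _ => Iff.rfl
  constructor
  · intro h
    convert K.strong_iso _ _ e he _ h.2 using 1
    ext x
    exact ⟨fun hx => ⟨⟨x, trivial⟩, hx, rfl⟩, fun ⟨y, hy, e'⟩ => e' ▸ hy⟩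
  · intro h
    refine ⟨subset_univ _, ?_⟩
    convert K.strong_iso _ _ e.symm he.symm _ h using 1
    ext x
    exact ⟨fun hx => ⟨x.1, hx, rfl⟩, fun ⟨y, hy, e'⟩ => e' ▸ hy⟩

theorem leOn_trans {A B C : Set M.U} (hAB : K.LeOn M A B) (hBC : K.LeOn M B C) :
    K.LeOn M A C := by
  refine ⟨hAB.1.trans hBC.1, K.strong_trans _ _ _ (preimage_mono hAB.1) hBC.2 ?_⟩
  let e := nested C B hBC.1
  convert K.strong_iso (M.restr B) ((M.restr C).restr _) e.symm (fun _ _ => Iff.rfl) _ hAB.2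
    using 1
  ext x
  exact ⟨fun hx => ⟨e x, hx, e.symm_apply_apply x⟩, fun ⟨y, hy, e'⟩ => e' ▸ hy⟩

theorem leOn_coherence {A B C : Set M.U} (hAC : K.LeOn M A C) (hBC : K.LeOn M B C) (h : A ⊆ B) :
    K.LeOn M A B := by
  refine ⟨h, ?_⟩
  have := K.coherence _ _ _ (preimage_mono h) hAC.2 hBC.2
  let e := nested C B hBC.1
  convert K.strong_iso ((M.restr C).restr _) (M.restr B) e (fun _ _ => Iff.rfl) _ this using 1
  ext x
  exact ⟨fun hx => ⟨e.symm x, hx, e.apply_symm_apply x⟩, fun ⟨y, hy, e'⟩ => e' ▸ hy⟩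

theorem leOn_chain {J : Type u} [LinearOrder J] [WellFoundedLT J] [Nonempty J] (A : J → Set M.U)
    (h : ∀ i j, i ≤ j → K.LeOn M (A i) (A j)) :
    K.MemOn M (⋃ i, A i) ∧ ∀ i, K.LeOn M (A i) (⋃ i, A i) := by
  let B : J → Set (M.restr (⋃ i, A i)).U := fun i => (fun x => x.1) ⁻¹' A i
  let e : ∀ i, (B i : Set _) ≃ (A i) := fun i =>
    nested (⋃ i, A i) (A i) (subset_iUnion A i)
  have he : ∀ i, IsIso ((M.restr (⋃ i, A i)).restr (B i)) (M.restr (A i)) (e i) :=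
    fun i _ _ => Iff.rfl
  have := K.chain (M.restr (⋃ i, A i)) J B (fun i j hij => preimage_mono (h i j hij).1)
    (fun i => K.mem_iso _ _ _ (he i).symm (K.leOn_mem (h i i le_rfl)).1)
    (fun i j hij => by
      convert K.strong_iso _ _ (e j).symm (he j).symm _ (h i j hij).2 using 1
      ext x
      exact ⟨fun hx => ⟨e j x, hx, (e j).symm_apply_apply x⟩, fun ⟨y, hy, e'⟩ => e' ▸ hy⟩)
    (eq_univ_of_forall fun x => by
      obtain ⟨i, hi⟩ := mem_iUnion.1 x.2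
      exact mem_iUnion.2 ⟨i, hi⟩)
  exact ⟨this.1, fun i => ⟨subset_iUnion A i, this.2 i⟩⟩

theorem leOn_smooth {J : Type u} [LinearOrder J] [WellFoundedLT J] [Nonempty J] (A : J → Set M.U)
    {C : Set M.U} (hmono : ∀ i j, i ≤ j → A i ⊆ A j) (h : ∀ i, K.LeOn M (A i) C) :
    K.LeOn M (⋃ i, A i) C := by
  refine ⟨iUnion_subset fun i => (h i).1, ?_⟩
  rw [preimage_iUnion]
  exact K.smooth _ _ _ (fun i j hij => preimage_mono (hmono i j hij)) fun i => (h i).2

theorem leOn_ls {A C : Set M.U} (hC : K.MemOn M C) (hA : A ⊆ C) :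
    ∃ B, A ⊆ B ∧ K.LeOn M B C ∧ #B ≤ #A + l := by
  obtain ⟨B, hAB, hB, hcard⟩ := K.ls (M.restr C) ((fun x : C => (x : M.U)) ⁻¹' A) hC
  refine ⟨(fun x : C => (x : M.U)) '' B, fun x hx => ⟨⟨x, hA hx⟩, hAB hx, rfl⟩,
    ⟨fun x ⟨y, _, e⟩ => e ▸ y.2, ?_⟩, mk_image_le.trans (hcard.trans ?_)⟩
  · rwa [preimage_image_eq _ Subtype.val_injective]
  · gcongr
    exact mk_preimage_of_injective _ _ Subtype.val_injective

theorem memOn_iso {M' : Str σ ar} {A : Set M.U} {A' : Set M'.U} (e : A ≃ A')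
    (he : IsIso (M.restr A) (M'.restr A') e) (h : K.MemOn M A) : K.MemOn M' A' :=
  K.mem_iso _ _ e he h

theorem leOn_iso {M' : Str σ ar} {A B : Set M.U} {A' B' : Set M'.U} (e : A ≃ A')
    (he : IsIso (M.restr A) (M'.restr A') e) (hB' : B' ⊆ A')
    (hmap : ∀ x : A, (e x : M'.U) ∈ B' ↔ (x : M.U) ∈ B) (h : K.LeOn M B A) :
    K.LeOn M' B' A' := by
  refine ⟨hB', ?_⟩
  convert K.strong_iso _ _ e he _ h.2 using 1
  ext y
  obtain ⟨x, rfl⟩ := e.surjective y
  exact ⟨fun hy => ⟨x, (hmap x).1 hy, rfl⟩, fun ⟨x', hx', e'⟩ => by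
    obtain rfl := e.injective e'; exact (hmap x').2 hx'⟩

end AEC

end Vale.Agent.P307
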