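import Mathlib

/-!
Classes of coloured sets closed under the AEC operations: large fibres can be stretched.
-/

namespace Vale.Agent.P307

open Cardinal Set

universe u

/-- A class of coloured subsets with a strong subset relation. -/
structure ColClass (T : Type u) (L : Cardinal.{u}) where
  /-- The coloured subset is in the class. -/
  mem : ∀ {I : Type u}, (I → T) → Set I → Prop
  /-- The strong subset relation. -/
  le : ∀ {I : Type u}, (I → T) → Set I → Set I → Prop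
  mem_iso : ∀ {I I' : Type u} (τ : I → T) (τ' : I' → T) (A : Set I) (A' : Set I') (e : A ≃ A'),
    (∀ x : A, τ' (e x) = τ x) → mem τ A → mem τ' A'
  le_iso : ∀ {I I' : Type u} (τ : I → T) (τ' : I' → T) (A B : Set I) (A' B' : Set I')
    (e : A ≃ A'), (∀ x : A, τ' (e x) = τ x) → B' ⊆ A' →
    (∀ x : A, (e x : I') ∈ B' ↔ (x : I) ∈ B) → le τ B A → le τ' B' A'
  le_sub : ∀ {I : Type u} (τ : I → T) (A B : Set I), le τ A B → A ⊆ B
  le_refl : ∀ {I : Type u} (τ : I → T) (A : Set I), mem τ A → le τ A A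
  le_trans : ∀ {I : Type u} (τ : I → T) (A B C : Set I), le τ A B → le τ B C → le τ A C
  coherence : ∀ {I : Type u} (τ : I → T) (A B C : Set I),
    le τ A C → le τ B C → A ⊆ B → le τ A B
  le_mem : ∀ {I : Type u} (τ : I → T) (A B : Set I), le τ A B → mem τ A ∧ mem τ B
  chain : ∀ {I : Type u} (τ : I → T) (J : Type u) [LinearOrder J] [WellFoundedLT J] [Nonempty J]
    (A : J → Set I), (∀ i j, i ≤ j → le τ (A i) (A j)) →
    mem τ (⋃ i, A i) ∧ ∀ i, le τ (A i) (⋃ i, A i)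
  smooth : ∀ {I : Type u} (τ : I → T) (J : Type u) [LinearOrder J] [WellFoundedLT J] [Nonempty J]
    (A : J → Set I) (C : Set I), (∀ i j, i ≤ j → A i ⊆ A j) → (∀ i, le τ (A i) C) →
    le τ (⋃ i, A i) C
  ls : ∀ {I : Type u} (τ : I → T) (A C : Set I), mem τ C → A ⊆ C → #A ≤ L →
    ∃ B, A ⊆ B ∧ le τ B C ∧ #B ≤ L

variable {T : Type u} {L : Cardinal.{u}}

/-- The size of a colour inside a subset. -/
def fib {I : Type u} (τ : I → T) (t : T) (A : Set I) : Cardinal.{u} :=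
  #({i | i ∈ A ∧ τ i = t} : Set I)

/-- A subset that contains every element of a small colour and many of each big colour. -/
def Good (L : Cardinal.{u}) {I : Type u} (τ : I → T) (B : Set T) (J : Set I) : Prop :=
  (∀ i, τ i ∉ B → i ∈ J) ∧ ∀ t ∈ B, L ≤ fib τ t J

theorem fib_mono {I : Type u} (τ : I → T) (t : T) {A A' : Set I} (h : A ⊆ A') :
    fib τ t A ≤ fib τ t A' :=
  mk_le_mk_of_subset fun _ hi => ⟨h hi.1, hi.2⟩

theorem fib_le {I : Type u} (τ : I → T) (t : T) (A : Set I) : fib τ t A ≤ #A :=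
  mk_le_mk_of_subset fun _ hi => hi.1

/-- Colour preserving bijections between subsets with the same colour counts. -/
theorem exists_equiv_of_fib_eq {I I' C : Type u} (τ : I → C) (τ' : I' → C) (A : Set I)
    (A' : Set I') (h : ∀ t, fib τ t A = fib τ' t A') :
    ∃ e : A ≃ A', ∀ x : A, τ' (e x) = τ x := by
  have hf : ∀ t, Nonempty ({x : A // τ x = t} ≃ {x : A' // τ' x = t}) := fun t => by
    obtain ⟨e⟩ := Cardinal.eq.1 (h t)
    exact ⟨(Equiv.subtypeSubtypeEquivSubtypeInter (· ∈ A) (fun i => τ i = t)).trans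
      (e.trans (Equiv.subtypeSubtypeEquivSubtypeInter (· ∈ A') (fun i => τ' i = t)).symm)⟩
  let f := fun t => (hf t).some
  refine ⟨(Equiv.sigmaFiberEquiv fun x : A => τ x).symm.trans
    ((Equiv.sigmaCongrRight f).trans (Equiv.sigmaFiberEquiv fun x : A' => τ' x)), fun x => ?_⟩
  exact (f (τ x) ⟨x, rfl⟩).2

theorem exists_good_subset {I : Type u} (τ : I → T) (B : Set T) (hL : ℵ₀ ≤ L) (hT : #T ≤ L)
    (hsmall : ∀ t ∉ B, fib τ t Set.univ ≤ L) {J : Set I} (hJ : Good L τ B J) :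
    ∃ S ⊆ J, Good L τ B S ∧ #S ≤ L := by
  classical
  have : ∀ t, ∃ S ⊆ {i | i ∈ J ∧ τ i = t}, #S ≤ L ∧
      ((t ∈ B → L ≤ #S) ∧ (t ∉ B → {i | τ i = t} ⊆ S)) := by
    intro t
    by_cases ht : t ∈ B
    · obtain ⟨S, hS, hc⟩ := le_mk_iff_exists_subset.1 (hJ.2 t ht)
      exact ⟨S, hS, hc.le, fun _ => hc.ge, fun h => absurd ht h⟩
    · refine ⟨_, subset_rfl, le_trans (fib_mono τ t (subset_univ J)) (hsmall t ht),
        fun h => absurd h ht, fun _ i hi => ⟨hJ.1 i ?_, hi⟩⟩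
      rwa [show τ i = t from hi]
  choose S hS hcard hb hs using this
  refine ⟨⋃ t, S t, iUnion_subset fun t i hi => (hS t hi).1,
    ⟨fun i hi => mem_iUnion.2 ⟨τ i, hs _ hi rfl⟩, fun t ht => (hb t ht).trans ?_⟩, ?_⟩
  · exact mk_le_mk_of_subset fun i hi => ⟨mem_iUnion.2 ⟨t, hi⟩, (hS t hi).2⟩
  · calc #(⋃ t, S t) ≤ #T * ⨆ t, #(S t) := mk_iUnion_le _
      _ ≤ L * L := mul_le_mul' hT (ciSup_le' hcard)
      _ = L := mul_eq_self hL

theorem fib_compl_of_lt {I : Type u} (τ : I → T) (t : T) {S : Set I} (hL : ℵ₀ ≤ L)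
    (hS : #S ≤ L) (ht : L < fib τ t Set.univ) : fib τ t Sᶜ = fib τ t Set.univ := by
  refine le_antisymm (fib_mono τ t (subset_univ _)) ?_
  by_contra! h
  have h1 : fib τ t Set.univ ≤ fib τ t S + fib τ t Sᶜ := by
    refine le_trans (mk_le_mk_of_subset ?_) (mk_union_le _ _)
    intro i hi
    by_cases hiS : i ∈ S
    · exact Or.inl ⟨hiS, hi.2⟩
    · exact Or.inr ⟨hiS, hi.2⟩
  exact absurd h1 (not_le.2 (add_lt_of_lt (hL.trans ht.le) (((fib_le τ t S).trans hS).trans_lt ht)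
    h))

namespace ColClass

variable (K : ColClass T L)

/-- In a member, every good small subset is strong. -/
theorem le_of_good {I : Type u} (τ : I → T) (hL : ℵ₀ ≤ L) (hT : #T ≤ L)
    (hmem : K.mem τ Set.univ) {S : Set I} (hS : Good L τ {t | L < fib τ t Set.univ} S) (hc : #S ≤ L) :
    K.le τ S Set.univ := by
  classical
  obtain ⟨B, hB⟩ : ∃ B : Set T, B = {t | L < fib τ t Set.univ} := ⟨_, rfl⟩
  rw [← hB] at hS
  obtain ⟨A, -, hA, hAc⟩ := exists_good_subset τ B hL hT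
    (fun t ht => by rw [hB] at ht; exact not_lt.1 ht)
    (J := Set.univ) ⟨fun _ _ => trivial, fun t ht => by rw [hB] at ht; exact le_of_lt ht⟩
  obtain ⟨S₀, hAS, hle, hS₀c⟩ := K.ls τ A Set.univ hmem (subset_univ _) hAc
  have key : ∀ R : Set I, Good L τ B R → #R ≤ L → ∀ t,
      (t ∈ B → fib τ t R = L ∧ fib τ t Rᶜ = fib τ t Set.univ) ∧
      (t ∉ B → fib τ t R = fib τ t Set.univ ∧ fib τ t Rᶜ = 0) := by
    intro R hR hRc t
    refine ⟨fun ht => ⟨le_antisymm ((fib_le _ _ _).trans hRc) (hR.2 t ht),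
      fib_compl_of_lt τ t hL hRc (by rw [hB] at ht; exact ht)⟩, fun ht => ⟨?_, ?_⟩⟩
    · refine le_antisymm (fib_mono τ t (subset_univ _)) (mk_le_mk_of_subset ?_)
      exact fun i hi => ⟨hR.1 i (by rw [hi.2]; exact ht), hi.2⟩
    · rw [fib, mk_eq_zero_iff]
      exact ⟨fun i => i.2.1 (hR.1 _ (by rw [i.2.2]; exact ht))⟩
  have hS₀ : Good L τ B S₀ :=
    ⟨fun i hi => hAS (hA.1 i hi), fun t ht => (hA.2 t ht).trans (fib_mono τ t hAS)⟩
  have heq : ∀ t, fib τ t S₀ = fib τ t S ∧ fib τ t S₀ᶜ = fib τ t Sᶜ := by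
    intro t
    by_cases ht : t ∈ B
    · obtain ⟨a, b⟩ := (key S₀ hS₀ hS₀c t).1 ht
      obtain ⟨a', b'⟩ := (key S hS hc t).1 ht
      exact ⟨a.trans a'.symm, b.trans b'.symm⟩
    · obtain ⟨a, b⟩ := (key S₀ hS₀ hS₀c t).2 ht
      obtain ⟨a', b'⟩ := (key S hS hc t).2 ht
      exact ⟨a.trans a'.symm, b.trans b'.symm⟩
  obtain ⟨e₁, he₁⟩ := exists_equiv_of_fib_eq τ τ S₀ S fun t => (heq t).1
  obtain ⟨e₂, he₂⟩ := exists_equiv_of_fib_eq τ τ S₀ᶜ Sᶜ fun t => (heq t).2
  let g : I ≃ I := (Equiv.Set.sumCompl S₀).symm.trans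
    ((Equiv.sumCongr e₁ e₂).trans (Equiv.Set.sumCompl S))
  have hg : ∀ i, τ (g i) = τ i ∧ (g i ∈ S ↔ i ∈ S₀) := by
    intro i
    by_cases hi : i ∈ S₀
    · have : g i = (e₁ ⟨i, hi⟩ : I) := by
        simp [g, Equiv.Set.sumCompl_symm_apply_of_mem hi]
      rw [this]
      exact ⟨he₁ ⟨i, hi⟩, iff_of_true (e₁ ⟨i, hi⟩).2 hi⟩
    · have : g i = (e₂ ⟨i, hi⟩ : I) := by
        simp [g, Equiv.Set.sumCompl_symm_apply_of_notMem hi]
      rw [this]
      exact ⟨he₂ ⟨i, hi⟩, iff_of_false (e₂ ⟨i, hi⟩).2 hi⟩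
  exact K.le_iso τ τ Set.univ S₀ Set.univ S
    ((Equiv.Set.univ I).trans (g.trans (Equiv.Set.univ I).symm))
    (fun x => (hg x).1) (subset_univ _) (fun x => (hg x).2) hle

/-- Stretching: keep the small colours and make every big colour any size that is at least `L`. -/
theorem stretch {I I' : Type u} (τ : I → T) (τ' : I' → T) (hL : ℵ₀ ≤ L) (hT : #T ≤ L)
    (hmem : K.mem τ Set.univ)
    (hsmall : ∀ t, fib τ t Set.univ ≤ L → fib τ' t Set.univ = fib τ t Set.univ)
    (hbig : ∀ t, L < fib τ t Set.univ → L ≤ fib τ' t Set.univ) :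
    K.mem τ' Set.univ := by
  classical
  obtain ⟨B, hB⟩ : ∃ B : Set T, B = {t | L < fib τ t Set.univ} := ⟨_, rfl⟩
  have hnB : ∀ t, t ∉ B → fib τ t Set.univ ≤ L := fun t ht => by
    rw [hB] at ht; exact not_lt.1 ht
  have hnB' : ∀ t, t ∉ B → fib τ' t Set.univ ≤ L := fun t ht => by
    rw [hsmall t (hnB t ht)]; exact hnB t ht
  obtain ⟨S, -, hS, hSc⟩ := exists_good_subset τ B hL hT hnB
    (J := Set.univ) ⟨fun _ _ => trivial, fun t ht => by rw [hB] at ht; exact le_of_lt ht⟩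
  have hbase : ∀ J : Set I', Good L τ' B J → #J ≤ L →
      K.mem τ' J ∧ ∀ J' ⊆ J, Good L τ' B J' → K.le τ' J' J := by
    intro J hJ hJc
    have hfib : ∀ t, fib τ' t J = fib τ t S := by
      intro t
      by_cases ht : t ∈ B
      · exact (le_antisymm ((fib_le _ _ _).trans hJc) (hJ.2 t ht)).trans
          (le_antisymm ((fib_le _ _ _).trans hSc) (hS.2 t ht)).symm
      · have e1 : fib τ' t J = fib τ' t Set.univ := le_antisymm (fib_mono τ' t (subset_univ _))
          (mk_le_mk_of_subset fun i hi => ⟨hJ.1 i (by rw [hi.2]; exact ht), hi.2⟩)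
        have e2 : fib τ t S = fib τ t Set.univ := le_antisymm (fib_mono τ t (subset_univ _))
          (mk_le_mk_of_subset fun i hi => ⟨hS.1 i (by rw [hi.2]; exact ht), hi.2⟩)
        rw [e1, e2, hsmall t (hnB t ht)]
    obtain ⟨e, he⟩ := exists_equiv_of_fib_eq τ' τ J S hfib
    have he' : ∀ y : S, τ' (e.symm y) = τ y := fun y => by
      conv_rhs => rw [← e.apply_symm_apply y, he]
    have hSle := K.le_of_good τ hL hT hmem (by rw [← hB]; exact hS) hSc
    refine ⟨K.mem_iso τ τ' S J e.symm he' (K.le_mem _ _ _ hSle).1, fun J' hJ' hJ'g => ?_⟩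
    let S' : Set I := {i | ∃ h : i ∈ S, (e.symm ⟨i, h⟩ : I') ∈ J'}
    have hS' : Good L τ B S' := by
      refine ⟨fun i hi => ⟨hS.1 i hi, hJ'g.1 _ ?_⟩, fun t ht => (hJ'g.2 t ht).trans ?_⟩
      · rw [he']; exact hi
      · refine mk_le_of_injective
          (f := fun x => ⟨(e ⟨x.1, hJ' x.2.1⟩ : I), ⟨(e ⟨x.1, hJ' x.2.1⟩).2, ?_⟩, ?_⟩) ?_
        · simpa using x.2.1
        · rw [he]; exact x.2.2
        · intro x y hxy
          simp only [Subtype.mk.injEq] at hxy
          have h1 := e.injective (Subtype.val_injective hxy)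
          simp only [Subtype.mk.injEq] at h1
          exact Subtype.ext h1
    have hS'S : S' ⊆ S := fun i hi => hi.1
    have h1 := K.le_of_good τ hL hT hmem (S := S') (by rw [← hB]; exact hS')
      ((mk_le_mk_of_subset hS'S).trans hSc)
    exact K.le_iso τ τ' S S' J J' e.symm he' hJ'
      (fun y => ⟨fun h => ⟨y.2, h⟩, fun ⟨_, h⟩ => h⟩) (K.coherence _ _ _ _ h1 hSle hS'S)
  have main : ∀ θ : Cardinal.{u}, ∀ J : Set I', #J = θ → Good L τ' B J →
      K.mem τ' J ∧ ∀ J' ⊆ J, Good L τ' B J' → K.le τ' J' J := by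
    intro θ
    induction θ using WellFoundedLT.induction with
    | _ θ ih =>
      intro J hθ hJ
      rcases le_or_gt θ L with hle | hlt
      · exact hbase J hJ (hθ ▸ hle)
      have hinf : ℵ₀ ≤ θ := hL.trans hlt.le
      have key : ∀ J' ⊆ J, Good L τ' B J' → K.mem τ' J ∧ K.le τ' J' J := by
        intro J' hJ' hJ'g
        obtain ⟨S₀, hS₀J', hS₀, hS₀c⟩ := exists_good_subset τ' B hL hT hnB' hJ'g
        let W := θ.ord.ToType
        have hW : #W = θ := by simp [W]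
        obtain ⟨h⟩ := Cardinal.eq.1 (hW.trans hθ.symm)
        have : NoMaxOrder W := Cardinal.noMaxOrder hinf
        have : Nonempty W := mk_ne_zero_iff.1 (by
          rw [hW]; exact (lt_of_lt_of_le aleph0_pos hinf).ne')
        let A : W → Set I' := fun i => S₀ ∪ (fun k => (h k : I')) '' Iio i
        have hAJ : ∀ i, A i ⊆ J := fun i => union_subset (hS₀J'.trans hJ')
          fun x ⟨k, _, e⟩ => e ▸ (h k).2
        have hAg : ∀ i, Good L τ' B (A i) := fun i =>
          ⟨fun x hx => Or.inl (hS₀.1 x hx), fun t ht => (hS₀.2 t ht).trans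
            (fib_mono τ' t subset_union_left)⟩
        have hAmono : ∀ i j, i ≤ j → A i ⊆ A j := fun i j hij =>
          union_subset_union_right _ (image_mono (Iio_subset_Iio hij))
        have hAc : ∀ i, #(A i) < θ := fun i => (mk_union_le _ _).trans_lt
          (add_lt_of_lt hinf (hS₀c.trans_lt hlt) (mk_image_le.trans_lt (mk_Iio_toType_ord_lt i)))
        have hAU : (⋃ i, A i) = J := by
          refine subset_antisymm (iUnion_subset hAJ) fun x hx => ?_
          obtain ⟨j, hj⟩ := exists_gt (h.symm ⟨x, hx⟩)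
          exact mem_iUnion.2 ⟨j, Or.inr ⟨h.symm ⟨x, hx⟩, hj, by simp⟩⟩
        have hle : ∀ i j, i ≤ j → K.le τ' (A i) (A j) := fun i j hij =>
          (ih _ (hAc j) (A j) rfl (hAg j)).2 (A i) (hAmono i j hij) (hAg i)
        obtain ⟨hm, hAle⟩ := K.chain τ' W A hle
        rw [hAU] at hm hAle
        have hA'g : ∀ i, Good L τ' B (A i ∩ J') := fun i =>
          ⟨fun x hx => ⟨(hAg i).1 x hx, hJ'g.1 x hx⟩, fun t ht => (hS₀.2 t ht).trans
            (fib_mono τ' t fun x hx => ⟨Or.inl hx, hS₀J' hx⟩)⟩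
        have hA'le : ∀ i, K.le τ' (A i ∩ J') J := fun i =>
          K.le_trans _ _ _ _ ((ih _ (hAc i) (A i) rfl (hAg i)).2 _ inter_subset_left (hA'g i))
            (hAle i)
        have := K.smooth τ' W (fun i => A i ∩ J') J
          (fun i j hij => inter_subset_inter_left _ (hAmono i j hij)) hA'le
        rw [← iUnion_inter, hAU, inter_eq_right.2 hJ'] at this
        exact ⟨hm, this⟩
      exact ⟨(key J subset_rfl hJ).1, fun J' h1 h2 => (key J' h1 h2).2⟩
  exact (main _ Set.univ rfl ⟨fun _ _ => trivial, fun t ht => hbig t (by rw [hB] at ht; exact ht)⟩).1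

end ColClass

end Vale.Agent.P307
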