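import Mathlib
import Vale.Agent.P307.Ambient
import Vale.Agent.P307.Colour

/-!
Disjoint sums of small connected structures, coloured by their isomorphism types.
-/

namespace Vale.Agent.P307

open Cardinal Set

universe u

variable {σ : Type u} {ar : σ → ℕ}

/-- Connectedness of the co-occurrence graph. -/
def Connected (M : Str σ ar) : Prop := ∀ x y : M.U, Relation.EqvGen (Adj M) x y

/-- A structure on a subset of `W`. -/
def Pre (σ : Type u) (ar : σ → ℕ) (W : Type u) : Type u :=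
  Σ D : Set W, ∀ s, (Fin (ar s) → D) → Prop

/-- The structure of a presentation. -/
def Pre.str {W : Type u} (p : Pre σ ar W) : Str σ ar := ⟨p.1, p.2⟩

/-- Presentations up to isomorphism. -/
def preSetoid (σ : Type u) (ar : σ → ℕ) (W : Type u) : Setoid (Pre σ ar W) where
  r p q := ∃ e, IsIso p.str q.str e
  iseqv :=
    { refl := fun p => ⟨_, IsIso.refl p.str⟩
      symm := fun ⟨e, he⟩ => ⟨e.symm, he.symm⟩
      trans := fun ⟨e, he⟩ ⟨e', he'⟩ => ⟨e.trans e', he.trans he'⟩ }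

/-- A representative of an isomorphism type. -/
noncomputable def repr {W : Type u} (t : Quotient (preSetoid σ ar W)) : Str σ ar := t.out.str

/-- Isomorphism types of connected nonempty structures with false nullary relations. -/
def Col (σ : Type u) (ar : σ → ℕ) (W : Type u) : Type u :=
  {t : Quotient (preSetoid σ ar W) //
    Nonempty (repr t).U ∧ Connected (repr t) ∧ ∀ s f, ar s = 0 → ¬ (repr t).rel s f}

/-- The structure of a colour. -/
noncomputable def Col.str {W : Type u} (t : Col σ ar W) : Str σ ar := repr t.1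

variable {W : Type u} {z : σ → Prop}

/-- The disjoint sum of coloured components, with nullary relations `z`. -/
noncomputable def sumStr (z : σ → Prop) {I : Type u} (τ : I → Col σ ar W) : Str σ ar where
  U := Σ i, (τ i).str.U
  rel s f := (ar s = 0 ∧ z s) ∨
    (ar s ≠ 0 ∧ ∃ i g, (∀ a, f a = ⟨i, g a⟩) ∧ (τ i).str.rel s g)

/-- The union of the components with index in `A`. -/
def comps {I : Type u} (τ : I → Col σ ar W) (A : Set I) : Set (sumStr z τ).U :=
  {x | x.1 ∈ A}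

theorem exists_iso_comps {I : Type u} (τ : I → Col σ ar W) (A : Set I) :
    ∃ e : ((sumStr z τ).restr (comps τ A)).U ≃ (sumStr z fun x : A => τ x).U,
      IsIso _ _ e ∧ ∀ x, ((e x).1 : I) = x.1.1 := by
  refine ⟨⟨fun x => ⟨⟨x.1.1, x.2⟩, x.1.2⟩, fun y => ⟨⟨y.1.1, y.2⟩, y.1.2⟩, fun _ => rfl,
    fun _ => rfl⟩, fun s f => ?_, fun _ => rfl⟩
  change (_ ∨ _) ↔ (_ ∨ _)
  refine or_congr_right (and_congr_right fun hs => ⟨?_, ?_⟩)
  · rintro ⟨i, g, hf, hg⟩
    refine ⟨i.1, g, fun a => ?_, hg⟩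
    exact congrArg (fun y : (sumStr z fun x : A => τ x).U => (⟨y.1.1, y.2⟩ : (sumStr z τ).U))
      (hf a)
  · rintro ⟨i, g, hf, hg⟩
    have hi : i ∈ A := by
      have := (f ⟨0, Nat.pos_of_ne_zero hs⟩).2
      rw [show (f ⟨0, Nat.pos_of_ne_zero hs⟩).1 = ⟨i, g ⟨0, Nat.pos_of_ne_zero hs⟩⟩ from hf _]
        at this
      exact this
    refine ⟨⟨i, hi⟩, g, fun a => ?_, hg⟩
    have h : f a = ⟨⟨i, g a⟩, hi⟩ := Subtype.ext (hf a)
    exact congrArg (fun q : ((sumStr z τ).restr (comps τ A)).U =>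
      (⟨⟨q.1.1, q.2⟩, q.1.2⟩ : (sumStr z fun x : A => τ x).U)) h

theorem exists_iso_sum {I I' : Type u} (τ : I → Col σ ar W) (τ' : I' → Col σ ar W) (e : I ≃ I')
    (h : ∀ i, τ' (e i) = τ i) :
    ∃ E : (sumStr z τ).U ≃ (sumStr z τ').U, IsIso _ _ E ∧ ∀ x, (E x).1 = e x.1 := by
  obtain rfl : τ = fun i => τ' (e i) := (funext h).symm
  refine ⟨Equiv.sigmaCongrLeft (β := fun j => (τ' j).str.U) e, fun s f => ?_, fun _ => rfl⟩
  change (_ ∨ _) ↔ (_ ∨ _)
  refine or_congr_right (and_congr_right fun hs => ⟨?_, ?_⟩)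
  · rintro ⟨i, g, hf, hg⟩
    obtain ⟨i, rfl⟩ := e.surjective i
    exact ⟨i, g, fun a => (Equiv.sigmaCongrLeft (β := fun j => (τ' j).str.U) e).injective (hf a),
      hg⟩
  · rintro ⟨i, g, hf, hg⟩
    exact ⟨e i, g, fun a => congrArg (Equiv.sigmaCongrLeft (β := fun j => (τ' j).str.U) e) (hf a), hg⟩

theorem exists_iso_comps_comps {I I' : Type u} (τ : I → Col σ ar W) (τ' : I' → Col σ ar W)
    {A : Set I} {A' : Set I'} (e : A ≃ A') (h : ∀ x : A, τ' (e x) = τ x) :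
    ∃ E : ((sumStr z τ).restr (comps τ A)).U ≃ ((sumStr z τ').restr (comps τ' A')).U,
      IsIso _ _ E ∧ ∀ x, (E x).1.1 = (e ⟨x.1.1, x.2⟩ : I') := by
  obtain ⟨e₁, h₁, p₁⟩ := exists_iso_comps (z := z) τ A
  obtain ⟨e₂, h₂, p₂⟩ := exists_iso_comps (z := z) τ' A'
  obtain ⟨E, hE, pE⟩ := exists_iso_sum (z := z) (fun x : A => τ x) (fun x : A' => τ' x) e h
  refine ⟨e₁.trans (E.trans e₂.symm), h₁.trans (hE.trans h₂.symm), fun x => ?_⟩
  simp only [Equiv.trans_apply]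
  rw [← p₂, e₂.apply_symm_apply, pE]
  exact congrArg (fun q => (e q : I')) (Subtype.ext (p₁ x))

theorem mk_comps_le {I : Type u} (τ : I → Col σ ar W) (A : Set I) :
    #(comps (z := z) τ A) ≤ #A * #W := by
  refine (mk_le_of_injective (f := fun x : comps (z := z) τ A =>
    ((⟨x.1.1, x.2⟩ : A), (Subtype.val x.1.2 : W))) ?_).trans (mk_prod _ _).le
    |>.trans (by simp)
  rintro ⟨⟨i, v⟩, hi⟩ ⟨⟨j, w⟩, hj⟩ h
  simp only [Prod.mk.injEq] at h
  obtain ⟨h1, h2⟩ := h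
  obtain rfl : i = j := congrArg Subtype.val h1
  obtain rfl := Subtype.ext h2
  rfl

/-- The class of coloured sets induced by an AEC. -/
noncomputable def colClass {l L : Cardinal.{u}} (K : AEC σ ar l) (z : σ → Prop) (hl : l ≤ L)
    (hW : #W ≤ L) (hL : ℵ₀ ≤ L) : ColClass (Col σ ar W) L where
  mem τ A := K.MemOn (sumStr z τ) (comps τ A)
  le τ A B := K.LeOn (sumStr z τ) (comps τ A) (comps τ B)
  mem_iso τ τ' A A' e h hm := by
    obtain ⟨E, hE, -⟩ := exists_iso_comps_comps (z := z) τ τ' e h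
    exact K.memOn_iso E hE hm
  le_iso τ τ' A B A' B' e h hB' hmap hle := by
    obtain ⟨E, hE, pE⟩ := exists_iso_comps_comps (z := z) τ τ' e h
    refine K.leOn_iso E hE (fun x hx => hB' hx) (fun x => ?_) hle
    change (E x).1.1 ∈ B' ↔ x.1.1 ∈ B
    rw [pE]
    exact hmap ⟨x.1.1, x.2⟩
  le_sub τ A B h i hi := by
    obtain ⟨v⟩ := (τ i).2.1
    exact h.1 (show (⟨i, v⟩ : (sumStr z τ).U) ∈ comps τ A from hi)
  le_refl _ _ h := K.leOn_refl h
  le_trans _ _ _ _ h h' := K.leOn_trans h h'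
  coherence _ _ _ _ h h' hs := K.leOn_coherence h h' fun _ hx => hs hx
  le_mem _ _ _ h := K.leOn_mem h
  chain τ J _ _ _ A h := by
    have hU : comps (z := z) τ (⋃ i, A i) = ⋃ i, comps τ (A i) := by
      ext x; simp [comps]
    rw [hU]
    exact K.leOn_chain _ h
  smooth τ J _ _ _ A C hmono h := by
    have hU : comps (z := z) τ (⋃ i, A i) = ⋃ i, comps τ (A i) := by
      ext x; simp [comps]
    rw [hU]
    exact K.leOn_smooth _ (fun i j hij _ hx => hmono i j hij hx) h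
  ls {I} τ A C hm hA hAc := by
    have step : ∀ X : {X : Set I // X ⊆ C ∧ #X ≤ L}, ∃ Y : Set (sumStr z τ).U,
        comps τ X.1 ⊆ Y ∧ K.LeOn (sumStr z τ) Y (comps τ C) ∧ #Y ≤ L := by
      intro X
      obtain ⟨Y, h1, h2, h3⟩ := K.leOn_ls hm (A := comps τ X.1) (fun x hx => X.2.1 hx)
      exact ⟨Y, h1, h2, h3.trans (add_le_of_le hL ((mk_comps_le τ X.1).trans
        ((mul_le_mul' X.2.2 hW).trans (mul_eq_self hL).le)) hl)⟩
    choose Y hY1 hY2 hY3 using step
    let next : {X : Set I // X ⊆ C ∧ #X ≤ L} → {X : Set I // X ⊆ C ∧ #X ≤ L} := fun X =>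
      ⟨X.1 ∪ Sigma.fst '' Y X, union_subset X.2.1 fun i ⟨x, hx, e⟩ => e ▸ (hY2 X).1 hx,
        (mk_union_le _ _).trans (add_le_of_le hL X.2.2 (mk_image_le.trans (hY3 X)))⟩
    let X : ℕ → {X : Set I // X ⊆ C ∧ #X ≤ L} := fun n => next^[n] ⟨A, hA, hAc⟩
    have hX : ∀ n, (X (n + 1)).1 = (X n).1 ∪ Sigma.fst '' Y (X n) := fun n => by
      simp only [X, Function.iterate_succ_apply']
      rfl
    have hmono : Monotone fun n : ULift.{u} ℕ => Y (X n.down) := by
      have hm' : Monotone fun n : ℕ => Y (X n) := monotone_nat_of_le_succ fun n x hx =>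
        hY1 (X (n + 1)) (show x.1 ∈ (X (n + 1)).1 by rw [hX]; exact Or.inr ⟨x, hx, rfl⟩)
      exact fun a b hab => hm' (ULift.down_le.2 hab)
    have hU : comps (z := z) τ (⋃ n : ULift.{u} ℕ, (X n.down).1) = ⋃ n : ULift.{u} ℕ, Y (X n.down) := by
      ext x
      simp only [comps, mem_ofPred_eq, mem_iUnion]
      refine ⟨fun ⟨n, hn⟩ => ⟨n, hY1 _ hn⟩, fun ⟨n, hn⟩ => ⟨⟨n.down + 1⟩, ?_⟩⟩
      rw [hX]
      exact Or.inr ⟨x, hn, rfl⟩
    refine ⟨⋃ n : ULift.{u} ℕ, (X n.down).1, fun i hi => mem_iUnion.2 ⟨⟨0⟩, hi⟩, ?_, ?_⟩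
    · rw [hU]
      exact K.leOn_smooth _ (fun a b hab => hmono hab) fun n => hY2 _
    · calc #(⋃ n : ULift.{u} ℕ, (X n.down).1)
          ≤ #(ULift.{u} ℕ) * ⨆ n : ULift.{u} ℕ, #((X n.down).1) :=
            mk_iUnion_le (fun n : ULift.{u} ℕ => (X n.down).1)
        _ ≤ L * L := by
          refine mul_le_mul' ?_ (ciSup_le' fun n => (X n.down).2.2)
          rw [mk_uLift, mk_nat, lift_aleph0]
          exact hL
        _ = L := mul_eq_self hL

end Vale.Agent.P307
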