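import Mathlib
import Vale.Agent.P307.Sum

/-!
Locally bounded structures are sums of small connected components, with invariant multiplicities.
-/

namespace Vale.Agent.P307

open Cardinal Set

universe u

variable {σ : Type u} {ar : σ → ℕ} {W : Type u} {z : σ → Prop}

theorem eqvGen_iso {M N : Str σ ar} (e : M.U ≃ N.U) (he : IsIso M N e) {x y : M.U}
    (h : Relation.EqvGen (Adj M) x y) : Relation.EqvGen (Adj N) (e x) (e y) := by
  induction h with
  | rel a b hab =>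
    obtain ⟨s, f, hf, ⟨i, hi⟩, j, hj⟩ := hab
    exact .rel _ _ ⟨s, fun k => e (f k), (he s f).2 hf, ⟨i, congrArg e hi⟩, j, congrArg e hj⟩
  | refl a => exact .refl _
  | symm _ _ _ ih => exact ih.symm
  | trans _ _ _ _ _ i₁ i₂ => exact i₁.trans _ _ _ i₂

theorem rel_single {I : Type u} (τ : I → Col σ ar W) (i : I) {s : σ} (hs : ar s ≠ 0)
    (g : Fin (ar s) → (τ i).str.U) :
    (sumStr z τ).rel s (fun a => ⟨i, g a⟩) ↔ (τ i).str.rel s g := by
  refine ⟨?_, fun h => Or.inr ⟨hs, i, g, fun a => rfl, h⟩⟩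
  rintro (⟨h, -⟩ | ⟨-, j, g', hf, hg'⟩)
  · exact absurd h hs
  · obtain rfl : i = j := congrArg Sigma.fst (hf ⟨0, Nat.pos_of_ne_zero hs⟩)
    rwa [show g = g' from funext fun a => eq_of_heq (Sigma.mk.inj (hf a)).2]

theorem sum_eqvGen_iff {I : Type u} (τ : I → Col σ ar W) (x y : (sumStr z τ).U) :
    Relation.EqvGen (Adj (sumStr z τ)) x y ↔ x.1 = y.1 := by
  constructor
  · intro h
    induction h with
    | rel a b hab =>
      obtain ⟨s, f, hf, ⟨i, hi⟩, j, hj⟩ := hab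
      rcases hf with ⟨h0, -⟩ | ⟨-, c, g, hfg, -⟩
      · exact absurd h0 (Nat.ne_of_gt (lt_of_le_of_lt (Nat.zero_le _) i.2))
      · rw [← hi, ← hj, hfg, hfg]
    | refl a => rfl
    | symm _ _ _ ih => exact ih.symm
    | trans _ _ _ _ _ i₁ i₂ => exact i₁.trans i₂
  · obtain ⟨i, v⟩ := x
    obtain ⟨j, w⟩ := y
    rintro (rfl : i = j)
    suffices ∀ a b, Relation.EqvGen (Adj (τ i).str) a b →
        Relation.EqvGen (Adj (sumStr z τ)) (⟨i, a⟩ : (sumStr z τ).U) ⟨i, b⟩ from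
      this v w ((τ i).2.2.1 v w)
    intro a b h
    induction h with
    | rel a b hab =>
      obtain ⟨s, g, hg, ⟨k, hk⟩, l, hl⟩ := hab
      exact .rel _ _ ⟨s, fun c => ⟨i, g c⟩, Or.inr ⟨Nat.ne_of_gt (lt_of_le_of_lt (Nat.zero_le _)
        k.2), i, g, fun _ => rfl, hg⟩, ⟨k, congrArg (Sigma.mk i) hk⟩, l, congrArg (Sigma.mk i) hl⟩
    | refl a => exact .refl _
    | symm _ _ _ ih => exact ih.symm
    | trans _ _ _ _ _ i₁ i₂ => exact i₁.trans _ _ _ i₂

theorem rel_zero {I : Type u} (τ : I → Col σ ar W) {s : σ} (hs : ar s = 0)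
    (f : Fin (ar s) → (sumStr z τ).U) : (sumStr z τ).rel s f ↔ z s :=
  ⟨fun h => h.elim (·.2) fun h' => absurd hs h'.1, fun h => Or.inl ⟨hs, h⟩⟩

theorem iso_invariants {I I' : Type u} {τ : I → Col σ ar W} {τ' : I' → Col σ ar W} {z' : σ → Prop}
    (E : (sumStr z τ).U ≃ (sumStr z' τ').U) (hE : IsIso _ _ E) :
    (∀ s, ar s = 0 → (z s ↔ z' s)) ∧ ∃ e : I ≃ I', ∀ i, τ' (e i) = τ i := by
  classical
  refine ⟨fun s hs => ?_, ?_⟩
  · let f : Fin (ar s) → (sumStr z τ).U := fun a => absurd a.2 (by omega)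
    exact ((rel_zero τ hs f).symm.trans (hE s f).symm).trans (rel_zero τ' hs _)
  have hsame : ∀ x y, x.1 = y.1 ↔ (E x).1 = (E y).1 := by
    intro x y
    rw [← sum_eqvGen_iff (z := z) τ, ← sum_eqvGen_iff (z := z') τ']
    refine ⟨eqvGen_iso E hE, fun h => ?_⟩
    simpa using eqvGen_iso E.symm hE.symm h
  choose pt hpt using fun i => show ∃ x : (sumStr z τ).U, x.1 = i from ⟨⟨i, (τ i).2.1.some⟩, rfl⟩
  choose pt' hpt' using fun i => show ∃ x : (sumStr z' τ').U, x.1 = i from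
    ⟨⟨i, (τ' i).2.1.some⟩, rfl⟩
  let e : I ≃ I' :=
    { toFun := fun i => (E (pt i)).1
      invFun := fun j => (E.symm (pt' j)).1
      left_inv := fun i => by
        conv_rhs => rw [← hpt i]
        rw [hsame, E.apply_symm_apply, hpt']
      right_inv := fun j => by
        conv_rhs => rw [← hpt' j, ← E.apply_symm_apply (pt' j)]
        rw [← hsame, hpt] }
  have he : ∀ x, (E x).1 = e x.1 := fun x => (hsame x (pt x.1)).1 (hpt _).symm
  refine ⟨e, fun i => ?_⟩
  let q : {x : (sumStr z τ).U // x.1 = i} ≃ (τ i).str.U := Equiv.sigmaSubtype i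
  let q' : {x : (sumStr z' τ').U // x.1 = e i} ≃ (τ' (e i)).str.U := Equiv.sigmaSubtype (e i)
  let F : (τ i).str.U ≃ (τ' (e i)).str.U := q.symm.trans
    ((E.subtypeEquiv fun x => by rw [he, e.apply_eq_iff_eq]).trans q')
  have hF : ∀ v, E ⟨i, v⟩ = ⟨e i, F v⟩ := fun v => by
    have h1 : (q.symm v).1 = ⟨i, v⟩ := rfl
    have h2 : ∀ y : {x : (sumStr z' τ').U // x.1 = e i}, y.1 = ⟨e i, q' y⟩ := by
      rintro ⟨⟨j, w⟩, hj⟩
      obtain rfl : j = e i := hj
      rfl
    rw [← h1]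
    exact h2 ((E.subtypeEquiv fun x => by rw [he, e.apply_eq_iff_eq]) (q.symm v))
  have hFiso : IsIso (τ i).str (τ' (e i)).str F := by
    intro s g
    rcases eq_or_ne (ar s) 0 with hs | hs
    · exact iff_of_false ((τ' (e i)).2.2.2 s _ hs) ((τ i).2.2.2 s _ hs)
    · exact ((rel_single (z := z') τ' (e i) hs _).symm.trans
        ((iff_of_eq (congrArg ((sumStr z' τ').rel s) (funext fun a => (hF (g a)).symm))).trans
          (hE s _))).trans (rel_single (z := z) τ i hs g)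
  refine (Subtype.ext ?_).symm
  rw [← Quotient.out_eq (τ i).1, ← Quotient.out_eq (τ' (e i)).1]
  exact Quotient.sound ⟨F, hFiso⟩

theorem eqvGen_lift {M : Str σ ar} {x y : M.U} (h : Relation.EqvGen (Adj M) x y) (c : Set M.U)
    (hc : ∀ a b, Relation.EqvGen (Adj M) a b → (a ∈ c ↔ b ∈ c)) :
    ∀ (hx : x ∈ c) (hy : y ∈ c), Relation.EqvGen (Adj (M.restr c)) ⟨x, hx⟩ ⟨y, hy⟩ := by
  induction h with
  | rel a b hab =>
    intro hx hy
    obtain ⟨s, f, hf, ⟨i, hi⟩, j, hj⟩ := hab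
    have hfc : ∀ k, f k ∈ c := fun k =>
      (hc (f i) (f k) (.rel _ _ ⟨s, f, hf, ⟨i, rfl⟩, k, rfl⟩)).1 (hi ▸ hx)
    exact .rel _ _ ⟨s, fun k => ⟨f k, hfc k⟩, hf, ⟨i, Subtype.ext hi⟩, j, Subtype.ext hj⟩
  | refl a => exact fun _ _ => .refl _
  | symm _ _ _ ih => exact fun hx hy => (ih hy hx).symm
  | trans a b d hab _ i₁ i₂ =>
    exact fun hx hy => (i₁ hx ((hc a b hab).1 hx)).trans _ _ _ (i₂ _ hy)

theorem mk_class_le {l : Cardinal.{u}} (hl : ℵ₀ ≤ l) (M : Str σ ar)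
    (hloc : ∀ x, #({y | Adj M x y} : Set M.U) ≤ l) (x : M.U) :
    #({y | Relation.EqvGen (Adj M) x y} : Set M.U) ≤ l := by
  let step : Set M.U → Set M.U := fun A => A ∪ ⋃ a : A, {y | Adj M a y}
  let L : ℕ → Set M.U := fun n => step^[n] {x}
  have hL : ∀ n, L (n + 1) = step (L n) := fun n => Function.iterate_succ_apply' _ _ _
  have hsub : {y | Relation.EqvGen (Adj M) x y} ⊆ ⋃ n : ULift.{u} ℕ, L n.down := by
    suffices ∀ a b, Relation.EqvGen (Adj M) a b →
        (a ∈ ⋃ n : ULift.{u} ℕ, L n.down) = (b ∈ ⋃ n : ULift.{u} ℕ, L n.down) from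
      fun y hy => (this x y hy).mp (mem_iUnion.2 ⟨⟨0⟩, rfl⟩)
    intro a b h
    induction h with
    | rel a b hab =>
      have fwd : ∀ a b, Adj M a b → a ∈ (⋃ n : ULift.{u} ℕ, L n.down) →
          b ∈ ⋃ n : ULift.{u} ℕ, L n.down := by
        intro a b hab ha
        obtain ⟨n, hn⟩ := mem_iUnion.1 ha
        refine mem_iUnion.2 ⟨⟨n.down + 1⟩, ?_⟩
        rw [hL]
        exact Or.inr (mem_iUnion.2 ⟨⟨a, hn⟩, hab⟩)
      obtain ⟨s, f, hf, hi, hj⟩ := hab
      exact propext ⟨fwd a b ⟨s, f, hf, hi, hj⟩, fwd b a ⟨s, f, hf, hj, hi⟩⟩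
    | refl a => rfl
    | symm _ _ _ ih => exact ih.symm
    | trans _ _ _ _ _ i₁ i₂ => exact i₁.trans i₂
  have hcard : ∀ n, #(L n) ≤ l := by
    intro n
    induction n with
    | zero => exact (mk_singleton x).trans_le (one_le_aleph0.trans hl)
    | succ n ih =>
      rw [hL]
      refine (mk_union_le _ _).trans (add_le_of_le hl ih ?_)
      calc #(⋃ a : (L n : Set M.U), {y | Adj M a y})
          ≤ #(L n) * ⨆ a : (L n : Set M.U), #({y | Adj M (a : M.U) y} : Set M.U) :=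
            mk_iUnion_le (fun a : (L n : Set M.U) => {y | Adj M (a : M.U) y})
        _ ≤ l * l := mul_le_mul' ih (ciSup_le' fun a => hloc a.1)
        _ = l := mul_eq_self hl
  calc #({y | Relation.EqvGen (Adj M) x y} : Set M.U)
      ≤ #(⋃ n : ULift.{u} ℕ, L n.down) := mk_le_mk_of_subset hsub
    _ ≤ #(ULift.{u} ℕ) * ⨆ n : ULift.{u} ℕ, #(L n.down) :=
        mk_iUnion_le (fun n : ULift.{u} ℕ => L n.down)
    _ ≤ l * l := by
        refine mul_le_mul' ?_ (ciSup_le' fun n => hcard _)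
        rw [mk_uLift, mk_nat, lift_aleph0]
        exact hl
    _ = l := mul_eq_self hl

theorem exists_decomposition (hW : ℵ₀ ≤ #W) (M : Str σ ar)
    (hloc : ∀ x, #({y | Adj M x y} : Set M.U) ≤ #W) :
    ∃ (I : Type u) (τ : I → Col σ ar W) (z : σ → Prop) (e : M.U ≃ (sumStr z τ).U),
      IsIso _ _ e := by
  classical
  let S : Setoid M.U := Relation.EqvGen.setoid (Adj M)
  let cls : Quotient S → Set M.U := fun c => {y | Quotient.mk S y = c}
  have hcls : ∀ c, #(cls c) ≤ #W := by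
    intro c
    obtain ⟨x, rfl⟩ := Quotient.exists_rep c
    refine (mk_le_mk_of_subset fun y hy => ?_).trans (mk_class_le hW M hloc x)
    exact (Quotient.exact hy).symm
  choose j hj using fun c => (Cardinal.le_def _ _).1 (hcls c) |>.elim fun f =>
    (⟨f, f.injective⟩ : ∃ j : cls c → W, Function.Injective j)
  let jq : ∀ c, cls c ≃ range (j c) := fun c => Equiv.ofInjective _ (hj c)
  let pre : Quotient S → Pre σ ar W := fun c =>
    ⟨range (j c), fun s g => ar s ≠ 0 ∧ M.rel s fun a => ((jq c).symm (g a) : M.U)⟩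
  let comp : Quotient S → Str σ ar := fun c =>
    ⟨cls c, fun s g => ar s ≠ 0 ∧ M.rel s fun a => (g a : M.U)⟩
  have hpre : ∀ c, IsIso (comp c) (pre c).str (jq c) := fun c s g => by
    refine and_congr_right fun _ => ?_
    exact iff_of_eq (congrArg (M.rel s)
      (funext fun a => congrArg Subtype.val ((jq c).symm_apply_apply (g a))))
  have hout : ∀ c, ∃ e, IsIso (comp c) (repr (Quotient.mk (preSetoid σ ar W) (pre c))) e := by
    intro c
    obtain ⟨e, he⟩ := Quotient.mk_out (s := preSetoid σ ar W) (pre c)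
    exact ⟨_, (hpre c).trans he.symm⟩
  choose G hG using hout
  have hprop : ∀ c, Nonempty (repr (Quotient.mk (preSetoid σ ar W) (pre c))).U ∧
      Connected (repr (Quotient.mk (preSetoid σ ar W) (pre c))) ∧
      ∀ s f, ar s = 0 → ¬ (repr (Quotient.mk (preSetoid σ ar W) (pre c))).rel s f := by
    intro c
    obtain ⟨x, hx⟩ := Quotient.exists_rep c
    refine ⟨⟨G c ⟨x, hx⟩⟩, fun a b => ?_, fun s f hs hf => ?_⟩
    · obtain ⟨⟨a, ha⟩, rfl⟩ := (G c).surjective a
      obtain ⟨⟨b, hb⟩, rfl⟩ := (G c).surjective b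
      refine eqvGen_iso (G c) (hG c) ?_
      have h := eqvGen_lift (Quotient.exact (ha.trans hb.symm)) (cls c)
        (fun p q hpq => by
          have : Quotient.mk S p = Quotient.mk S q := Quotient.sound hpq
          change _ = c ↔ _ = c
          rw [this]) ha hb
      have hadj : ∀ p q, Adj (M.restr (cls c)) p q → Adj (comp c) p q := by
        rintro p q ⟨s, g, hg, ⟨i, hi⟩, hj'⟩
        exact ⟨s, g, ⟨Nat.ne_of_gt (lt_of_le_of_lt (Nat.zero_le _) i.2), hg⟩, ⟨i, hi⟩, hj'⟩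
      exact Relation.EqvGen.mono hadj _ _ h
    · have := (hG c s fun a => (G c).symm (f a)).1 (by simpa using hf)
      exact this.1 hs
  let τ : Quotient S → Col σ ar W := fun c => ⟨_, hprop c⟩
  let z : σ → Prop := fun s => ∃ f, ar s = 0 ∧ M.rel s f
  let e : M.U ≃ (sumStr z τ).U :=
    (Equiv.sigmaFiberEquiv (Quotient.mk S)).symm.trans (Equiv.sigmaCongrRight G)
  refine ⟨Quotient S, τ, z, e, fun s f => ?_⟩
  rcases eq_or_ne (ar s) 0 with hs | hs
  · rw [rel_zero τ hs]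
    refine ⟨fun ⟨g, _, hg⟩ => ?_, fun h => ⟨f, hs, h⟩⟩
    rwa [show f = g from funext fun a => absurd a.2 (by omega)]
  constructor
  · rintro (⟨h, -⟩ | ⟨-, c, g, hfg, hg⟩)
    · exact absurd h hs
    · have hf : ∀ a, f a = ((G c).symm (g a) : M.U) := fun a => by
        have := congrArg e.symm (hfg a)
        rw [e.symm_apply_apply] at this
        exact this
      have := ((hG c s fun a => (G c).symm (g a)).1 ((congrArg ((τ c).str.rel s)
        (funext fun a => (G c).apply_symm_apply (g a))).symm ▸ hg)).2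
      rwa [show f = fun a => ((G c).symm (g a) : M.U) from funext hf]
  · intro h
    obtain ⟨c, hc⟩ : ∃ c, c = Quotient.mk S (f ⟨0, Nat.pos_of_ne_zero hs⟩) := ⟨_, rfl⟩
    have hfc : ∀ a, f a ∈ cls c := fun a => by
      rw [hc]
      exact Quotient.sound (Relation.EqvGen.rel _ _ ⟨s, f, h, ⟨a, rfl⟩, _, rfl⟩)
    refine Or.inr ⟨hs, c, fun a => G c ⟨f a, hfc a⟩, fun a => ?_,
      (hG c s fun a => ⟨f a, hfc a⟩).2 ⟨hs, h⟩⟩
    exact (Equiv.eq_symm_apply e).1
      (congrArg Subtype.val ((G c).symm_apply_apply ⟨f a, hfc a⟩)).symm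

end Vale.Agent.P307
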