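import Mathlib
import Vale.Agent.P307.Ambient

/-!
Membership spreads from small good sets to all good sets; a class is determined by its small part.
-/

namespace Vale.Agent.P307

open Cardinal Set

universe u

variable {σ : Type u} {ar : σ → ℕ} {l : Cardinal.{u}}

/-- If good sets have small good closures, and small good sets are strongly nested members, then all
good sets are strongly nested members. -/
theorem AEC.mem_of_good (K : AEC σ ar l) {M : Str σ ar} {L : Cardinal.{u}} (hL : ℵ₀ ≤ L)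
    (Good : Set M.U → Prop)
    (hclos : ∀ J J', Good J → Good J' → J' ⊆ J → ∀ A ⊆ J,
      ∃ B, A ⊆ B ∧ B ⊆ J ∧ Good B ∧ Good (B ∩ J') ∧ #B ≤ max #A L)
    (hbase : ∀ J, Good J → #J ≤ L → K.MemOn M J ∧ ∀ J' ⊆ J, Good J' → K.LeOn M J' J) :
    ∀ J, Good J → K.MemOn M J ∧ ∀ J' ⊆ J, Good J' → K.LeOn M J' J := by
  classical
  suffices main : ∀ θ : Cardinal.{u}, ∀ J : Set M.U, #J = θ → Good J →
      K.MemOn M J ∧ ∀ J' ⊆ J, Good J' → K.LeOn M J' J from fun J hJ => main _ J rfl hJ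
  intro θ
  induction θ using WellFoundedLT.induction with
  | _ θ ih =>
    intro J hθ hJ
    rcases le_or_gt θ L with hle | hlt
    · exact hbase J hJ (hθ ▸ hle)
    have hinf : ℵ₀ ≤ θ := hL.trans hlt.le
    have key : ∀ J' ⊆ J, Good J' → K.MemOn M J ∧ K.LeOn M J' J := by
      intro J' hJ' hJ'g
      let W := θ.ord.ToType
      have hW : #W = θ := by simp [W]
      obtain ⟨h⟩ := Cardinal.eq.1 (hW.trans hθ.symm)
      have : NoMaxOrder W := Cardinal.noMaxOrder hinf
      have : Nonempty W := mk_ne_zero_iff.1 (by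
        rw [hW]; exact (lt_of_lt_of_le aleph0_pos hinf).ne')
      choose cl hcl using hclos J J' hJ hJ'g hJ'
      let A : W → Set M.U := wellFounded_lt.fix fun i rec =>
        let seed := insert (h i : M.U) (⋃ j : Iio i, rec j.1 j.2)
        if hs : seed ⊆ J then cl seed hs else ∅
      have hA : ∀ i, A i = if hs : insert (h i : M.U) (⋃ j : Iio i, A j.1) ⊆ J then
          cl _ hs else ∅ := fun i => wellFounded_lt.fix_eq _ i
      have hAJ : ∀ i, A i ⊆ J := fun i => by
        rw [hA]; split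
        · exact (hcl _ _).2.1
        · exact empty_subset _
      have hs : ∀ i, insert (h i : M.U) (⋃ j : Iio i, A j.1) ⊆ J := fun i =>
        insert_subset (h i).2 (iUnion_subset fun j => hAJ j.1)
      have hA' : ∀ i, A i = cl _ (hs i) := fun i => by rw [hA, dif_pos (hs i)]
      have hAg : ∀ i, Good (A i) ∧ Good (A i ∩ J') := fun i => by
        rw [hA']; exact ⟨(hcl _ _).2.2.1, (hcl _ _).2.2.2.1⟩
      have hAmono : ∀ i j, i ≤ j → A i ⊆ A j := by
        intro i j hij
        rcases hij.eq_or_lt with rfl | hlt'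
        · exact subset_rfl
        · rw [hA' j]
          exact fun x hx => (hcl _ _).1 (mem_insert_of_mem _ (mem_iUnion.2 ⟨⟨i, hlt'⟩, hx⟩))
      have hAc : ∀ i, #(A i) ≤ max L #(Iio i) := by
        intro i
        induction i using WellFoundedLT.induction with
        | _ i ihi =>
          have hm : ℵ₀ ≤ max L #(Iio i) := hL.trans (le_max_left _ _)
          rw [hA']
          refine (hcl _ _).2.2.2.2.trans (max_le ?_ (le_max_left _ _))
          refine mk_insert_le.trans (add_le_of_le hm ?_ (one_le_aleph0.trans hm))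
          calc #(⋃ j : Iio i, A j.1) ≤ #(Iio i) * ⨆ j : Iio i, #(A j.1) :=
                mk_iUnion_le (fun j : Iio i => A j.1)
            _ ≤ max L #(Iio i) * max L #(Iio i) := by
                refine mul_le_mul' (le_max_right _ _) (ciSup_le' fun j => (ihi j.1 j.2).trans ?_)
                exact max_le_max le_rfl (mk_le_mk_of_subset (Iio_subset_Iio j.2.le))
            _ = max L #(Iio i) := mul_eq_self hm
      have hAlt : ∀ i, #(A i) < θ := fun i =>
        (hAc i).trans_lt (max_lt hlt (mk_Iio_toType_ord_lt i))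
      have hAU : (⋃ i, A i) = J := by
        refine subset_antisymm (iUnion_subset hAJ) fun x hx => mem_iUnion.2 ⟨h.symm ⟨x, hx⟩, ?_⟩
        rw [hA']
        exact (hcl _ _).1 (by simp)
      have hle : ∀ i j, i ≤ j → K.LeOn M (A i) (A j) := fun i j hij =>
        (ih _ (hAlt j) (A j) rfl (hAg j).1).2 (A i) (hAmono i j hij) (hAg i).1
      obtain ⟨hm, hAle⟩ := K.leOn_chain A hle
      rw [hAU] at hm hAle
      have hA'le : ∀ i, K.LeOn M (A i ∩ J') J := fun i =>
        K.leOn_trans ((ih _ (hAlt i) (A i) rfl (hAg i).1).2 _ inter_subset_left (hAg i).2)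
          (hAle i)
      have := K.leOn_smooth (fun i => A i ∩ J')
        (fun i j hij => inter_subset_inter_left _ (hAmono i j hij)) hA'le
      rw [← iUnion_inter, hAU, inter_eq_right.2 hJ'] at this
      exact ⟨hm, this⟩
    exact ⟨(key J subset_rfl hJ).1, fun J' h1 h2 => (key J' h1 h2).2⟩

/-- Two classes with the same small members and small strong pairs have the same members. -/
theorem AEC.mem_of_agree (K₁ K₂ : AEC σ ar l) {L : Cardinal.{u}} (hL : ℵ₀ ≤ L) (hl : l ≤ L)
    (hmem : ∀ M : Str σ ar, #M.U ≤ L → K₁.mem M → K₂.mem M)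
    (hstr : ∀ (M : Str σ ar) (A : Set M.U), #M.U ≤ L → K₁.strong M A → K₂.strong M A)
    {M : Str σ ar} (hM : K₁.mem M) : K₂.mem M := by
  have step : ∀ (J : Set M.U), K₁.MemOn M J → ∀ A ⊆ J, ∃ B, A ⊆ B ∧ K₁.LeOn M B J ∧
      #B ≤ max #A L := by
    intro J hJ A hA
    obtain ⟨B, h1, h2, h3⟩ := K₁.leOn_ls hJ hA
    refine ⟨B, h1, h2, h3.trans (add_le_of_le (hL.trans (le_max_right _ _)) (le_max_left _ _)
      (hl.trans (le_max_right _ _)))⟩
  have h := (K₂.mem_of_good hL (fun J => K₁.LeOn M J Set.univ) ?_ ?_ Set.univ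
    (K₁.leOn_univ.2 (K₁.strong_refl M hM))).1
  · exact K₂.mem_iso _ _ (Equiv.Set.univ M.U) (fun _ _ => Iff.rfl) h
  · intro J J' hJ hJ' hsub A hA
    have hmJ := (K₁.leOn_mem hJ).1
    have hmJ' := (K₁.leOn_mem hJ').1
    have next : ∀ X : {X : Set M.U // X ⊆ J ∧ #X ≤ max #A L}, ∃ Y Z : Set M.U,
        X.1 ∩ J' ⊆ Y ∧ K₁.LeOn M Y J' ∧ X.1 ∪ Y ⊆ Z ∧ K₁.LeOn M Z J ∧ #Z ≤ max #A L := by
      intro X
      obtain ⟨Y, hY1, hY2, hY3⟩ := step J' hmJ' (X.1 ∩ J') inter_subset_right
      have hYc : #Y ≤ max #A L := hY3.trans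
        (max_le ((mk_le_mk_of_subset inter_subset_left).trans X.2.2) (le_max_right _ _))
      obtain ⟨Z, hZ1, hZ2, hZ3⟩ := step J hmJ (X.1 ∪ Y)
        (union_subset X.2.1 (hY2.1.trans hsub))
      exact ⟨Y, Z, hY1, hY2, hZ1, hZ2, hZ3.trans (max_le ((mk_union_le _ _).trans
        (add_le_of_le (hL.trans (le_max_right _ _)) X.2.2 hYc)) (le_max_right _ _))⟩
    choose Y Z hY1 hY2 hZ1 hZ2 hZ3 using next
    let X : ℕ → {X : Set M.U // X ⊆ J ∧ #X ≤ max #A L} := fun n =>
      (fun X => ⟨Z X, (hZ2 X).1, hZ3 X⟩)^[n] ⟨A, hA, le_max_left _ _⟩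
    have hX : ∀ n, (X (n + 1)).1 = Z (X n) := fun n => by
      simp only [X, Function.iterate_succ_apply']
    have hmZ : ∀ a b : ULift.{u} ℕ, a ≤ b → Z (X a.down) ⊆ Z (X b.down) := by
      have : Monotone fun n : ℕ => Z (X n) := monotone_nat_of_le_succ fun n x hx =>
        hZ1 _ (Or.inl (by rw [hX]; exact hx))
      exact fun a b hab => this (ULift.down_le.2 hab)
    let B : Set M.U := ⋃ n : ULift.{u} ℕ, Z (X n.down)
    have hBJ' : B ∩ J' = ⋃ n : ULift.{u} ℕ, Y (X n.down) := by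
      refine subset_antisymm ?_ ?_
      · rintro x ⟨hx, hxJ⟩
        obtain ⟨n, hn⟩ := mem_iUnion.1 hx
        exact mem_iUnion.2 ⟨⟨n.down + 1⟩, hY1 _ ⟨by rw [hX]; exact hn, hxJ⟩⟩
      · refine iUnion_subset fun n x hx => ⟨mem_iUnion.2 ⟨n, hZ1 _ (Or.inr hx)⟩, ?_⟩
        exact (hY2 _).1 hx
    have hYmono : ∀ a b : ULift.{u} ℕ, a ≤ b → Y (X a.down) ⊆ Y (X b.down) := by
      have : Monotone fun n : ℕ => Y (X n) := monotone_nat_of_le_succ fun n x hx =>
        hY1 _ ⟨by rw [hX]; exact hZ1 _ (Or.inr hx), (hY2 _).1 hx⟩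
      exact fun a b hab => this (ULift.down_le.2 hab)
    refine ⟨B, fun x hx => mem_iUnion.2 ⟨⟨0⟩, hZ1 _ (Or.inl hx)⟩,
      iUnion_subset fun n => (hZ2 _).1,
      K₁.leOn_trans (K₁.leOn_smooth _ hmZ fun n => hZ2 _) hJ, ?_, ?_⟩
    · rw [hBJ']
      exact K₁.leOn_trans (K₁.leOn_smooth _ hYmono fun n => hY2 _) hJ'
    · calc #B ≤ #(ULift.{u} ℕ) * ⨆ n : ULift.{u} ℕ, #(Z (X n.down)) :=
            mk_iUnion_le (fun n : ULift.{u} ℕ => Z (X n.down))
        _ ≤ max #A L * max #A L := by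
            refine mul_le_mul' ?_ (ciSup_le' fun n => hZ3 _)
            rw [mk_uLift, mk_nat, lift_aleph0]
            exact hL.trans (le_max_right _ _)
        _ = max #A L := mul_eq_self (hL.trans (le_max_right _ _))
  · intro J hJ hJc
    refine ⟨hmem _ hJc (K₁.leOn_mem hJ).1, fun J' hsub hJ' => ⟨hsub, hstr _ _ hJc ?_⟩⟩
    exact (K₁.leOn_coherence hJ' hJ hsub).2

end Vale.Agent.P307
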