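import Mathlib
import Vale.Agent.P307.Ambient

/-!
Replications: a small core with many copies of one block; their isomorphisms stretch.
-/

namespace Vale.Agent.P307

open Cardinal Set

universe u

variable {σ : Type u} {ar : σ → ℕ}

/-- A core and one block over it. -/
structure Pat (σ : Type u) (ar : σ → ℕ) where
  /-- The core. -/
  Cc : Type u
  /-- The block. -/
  D : Type u
  /-- The relations on the core and the block. -/
  rel : ∀ s : σ, (Fin (ar s) → Cc ⊕ D) → Prop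

namespace Pat

variable (P Q : Pat σ ar)

/-- The `j`-th copy. -/
def lift {I : Type u} (j : I) : P.Cc ⊕ P.D → P.Cc ⊕ (I × P.D) := Sum.map id (Prod.mk j)

/-- `I` copies of the block over the core. -/
abbrev str (I : Type u) : Str σ ar :=
  ⟨P.Cc ⊕ (I × P.D), fun s f => ∃ j g, P.rel s g ∧ ∀ a, f a = P.lift j (g a)⟩

/-- Renaming the copies. -/
def map {I I' : Type u} (v : I → I') : (P.str I).U → (P.str I').U := Sum.map id (Prod.map v id)

theorem map_lift {I I' : Type u} (v : I → I') (j : I) (y : P.Cc ⊕ P.D) :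
    P.map v (P.lift j y) = P.lift (v j) y := by
  cases y <;> rfl

theorem map_map {I I' I'' : Type u} (v : I → I') (w : I' → I'') (x : (P.str I).U) :
    P.map w (P.map v x) = P.map (fun i => w (v i)) x := by
  cases x <;> rfl

theorem rel_map {I I' : Type u} (v : I → I') {s : σ} {f : Fin (ar s) → (P.str I).U}
    (h : (P.str I).rel s f) : (P.str I').rel s (fun a => P.map v (f a)) := by
  obtain ⟨j, g, hg, hf⟩ := h
  exact ⟨v j, g, hg, fun a => (congrArg (P.map v) (hf a)).trans (P.map_lift v j _)⟩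

theorem map_self {I : Type u} {v : I → I} (hv : ∀ i, v i = i) (x : (P.str I).U) :
    P.map v x = x := by
  rcases x with c | ⟨i, d⟩
  · rfl
  · exact congrArg (fun k => Sum.inr (k, d)) (hv i)

theorem iso_congr {I I' : Type u} (e : I ≃ I') :
    ∃ E : (P.str I).U ≃ (P.str I').U, IsIso (P.str I) (P.str I') E := by
  have hl : ∀ x, P.map e.symm (P.map e x) = x := fun x => by
    rw [map_map, P.map_self e.symm_apply_apply]
  refine ⟨⟨P.map e, P.map e.symm, hl, fun x => by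
    rw [map_map, P.map_self e.apply_symm_apply]⟩, fun s f => ⟨fun h => ?_, P.rel_map e⟩⟩
  have := P.rel_map e.symm h
  convert this using 1
  exact funext fun a => (hl (f a)).symm

/-- The core together with the copies indexed in `J`. -/
def part {I : Type u} (J : Set I) : Set (P.str I).U :=
  {x | Sum.elim (fun _ => True) (fun p : I × P.D => p.1 ∈ J) x}

/-- The indices of the copies that a set meets. -/
def idx {I : Type u} (S : Set (P.str I).U) : Set I := {j | ∃ d, Sum.inr (j, d) ∈ S}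

theorem subset_part_idx {I : Type u} (S : Set (P.str I).U) : S ⊆ P.part (P.idx S) := by
  rintro (c | ⟨j, d⟩) h
  · trivial
  · exact ⟨d, h⟩

theorem part_mono {I : Type u} {J J' : Set I} (h : J ⊆ J') : P.part J ⊆ P.part J' := by
  rintro (c | ⟨j, d⟩) hx
  · trivial
  · exact h hx

theorem part_iUnion {I ι : Type u} [Nonempty ι] (J : ι → Set I) :
    P.part (⋃ i, J i) = ⋃ i, P.part (J i) := by
  ext (c | ⟨j, d⟩)
  · exact ⟨fun _ => mem_iUnion.2 ⟨Classical.arbitrary ι, trivial⟩, fun _ => trivial⟩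
  · simp [part]

theorem mk_idx_le {I : Type u} (S : Set (P.str I).U) : #(P.idx S) ≤ #S := by
  classical
  refine mk_le_of_surjective (f := fun x : {x : S // ∃ p, (x : (P.str I).U) = Sum.inr p} =>
    (⟨x.2.choose.1, x.2.choose.2, ?_⟩ : P.idx S)) ?_ |>.trans (mk_subtype_le _)
  · rw [← x.2.choose_spec]; exact x.1.2
  · rintro ⟨j, d, hd⟩
    have hx : ∃ p, (Sum.inr (j, d) : (P.str I).U) = Sum.inr p := ⟨_, rfl⟩
    refine ⟨⟨⟨_, hd⟩, hx⟩, Subtype.ext ?_⟩
    exact congrArg Prod.fst (Sum.inr.inj hx.choose_spec).symm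

theorem mk_part_le {I : Type u} {L : Cardinal.{u}} (hL : ℵ₀ ≤ L) (hC : #P.Cc ≤ L)
    (hD : #P.D ≤ L) {J : Set I} (hJ : #J ≤ L) : #(P.part J) ≤ L := by
  refine (mk_le_of_surjective (f := fun y : P.Cc ⊕ (J × P.D) =>
    (⟨Sum.map id (Prod.map Subtype.val id) y, ?_⟩ : P.part J)) ?_).trans ?_
  · rcases y with c | ⟨⟨j, hj⟩, d⟩
    · trivial
    · exact hj
  · rintro ⟨c | ⟨j, d⟩, hx⟩
    · exact ⟨Sum.inl c, rfl⟩
    · exact ⟨Sum.inr (⟨j, hx⟩, d), rfl⟩
  · simp only [mk_sum, mk_prod, lift_id]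
    exact add_le_of_le hL hC ((mul_le_mul' hJ hD).trans (mul_eq_self hL).le)

variable {P Q}

theorem exists_closed {I I' : Type u} {L : Cardinal.{u}} (hL : ℵ₀ ≤ L) (hC : #P.Cc ≤ L)
    (hD : #P.D ≤ L) (hC' : #Q.Cc ≤ L) (hD' : #Q.D ≤ L) (F : (P.str I).U ≃ (Q.str I').U)
    {S : Set I} {S' : Set I'} (hS : #S ≤ L) (hS' : #S' ≤ L) :
    ∃ (J : Set I) (J' : Set I'), S ⊆ J ∧ S' ⊆ J' ∧ #J ≤ L ∧ #J' ≤ L ∧
      ∀ x, F x ∈ Q.part J' ↔ x ∈ P.part J := by
  let Sm := {p : Set I × Set I' // #p.1 ≤ L ∧ #p.2 ≤ L}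
  let next : Sm → Sm := fun p =>
    ⟨(p.1.1 ∪ P.idx (F.symm '' Q.part p.1.2), p.1.2 ∪ Q.idx (F '' P.part p.1.1)),
      (mk_union_le _ _).trans (add_le_of_le hL p.2.1
        ((P.mk_idx_le _).trans (mk_image_le.trans (Q.mk_part_le hL hC' hD' p.2.2)))),
      (mk_union_le _ _).trans (add_le_of_le hL p.2.2
        ((Q.mk_idx_le _).trans (mk_image_le.trans (P.mk_part_le hL hC hD p.2.1))))⟩
  let X : ℕ → Sm := fun n => next^[n] ⟨(S, S'), hS, hS'⟩
  have hX : ∀ n, X (n + 1) = next (X n) := fun n => by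
    simp only [X, Function.iterate_succ_apply']
  have hbound : ∀ {A : Type u} (s : ℕ → Set A), (∀ n, #(s n) ≤ L) →
      #(⋃ n : ULift.{u} ℕ, s n.down) ≤ L := by
    intro A s hs
    calc #(⋃ n : ULift.{u} ℕ, s n.down) ≤ #(ULift.{u} ℕ) * ⨆ n : ULift.{u} ℕ, #(s n.down) :=
          mk_iUnion_le (fun n : ULift.{u} ℕ => s n.down)
      _ ≤ L * L := by
          refine mul_le_mul' ?_ (ciSup_le' fun n => hs _)
          rw [mk_uLift, mk_nat, lift_aleph0]
          exact hL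
      _ = L := mul_eq_self hL
  refine ⟨⋃ n : ULift.{u} ℕ, (X n.down).1.1, ⋃ n : ULift.{u} ℕ, (X n.down).1.2,
    fun i hi => mem_iUnion.2 ⟨⟨0⟩, hi⟩, fun i hi => mem_iUnion.2 ⟨⟨0⟩, hi⟩,
    hbound (fun n => (X n).1.1) fun n => (X n).2.1, hbound (fun n => (X n).1.2) fun n => (X n).2.2,
    fun x => ?_⟩
  rw [part_iUnion, part_iUnion]
  constructor
  · intro h
    obtain ⟨n, hn⟩ := mem_iUnion.1 h
    refine mem_iUnion.2 ⟨⟨n.down + 1⟩, P.part_mono ?_ (P.subset_part_idx _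
      (mem_image_of_mem F.symm hn : F.symm (F x) ∈ F.symm '' Q.part (X n.down).1.2) |> fun h => by
        rwa [F.symm_apply_apply] at h)⟩
    rw [hX]
    exact subset_union_right
  · intro h
    obtain ⟨n, hn⟩ := mem_iUnion.1 h
    refine mem_iUnion.2 ⟨⟨n.down + 1⟩, Q.part_mono ?_ (Q.subset_part_idx _
      (mem_image_of_mem F hn))⟩
    rw [hX]
    exact subset_union_right

section Blocks

variable {I I' J : Type u}

/-- Forget the label of a block. -/
def forget {J₁ B : Set I} : J₁ ⊕ (J × B) → I := Sum.elim Subtype.val fun p => p.2.1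

/-- Send an index into the base or into the block with label `k`. -/
noncomputable def label {J₁ B : Set I} (b₀ : B) (k : J) (i : I) : J₁ ⊕ (J × B) := by
  classical
  exact if h : i ∈ J₁ then Sum.inl ⟨i, h⟩ else
    if h' : i ∈ B then Sum.inr (k, ⟨i, h'⟩) else Sum.inr (k, b₀)

/-- The label of a point, a default one on the base. -/
def blockOf {A B : Type u} (k₀ : J) {D : Type u} {C : Type u} : C ⊕ ((A ⊕ (J × B)) × D) → J :=
  Sum.elim (fun _ => k₀) fun p => Sum.elim (fun _ => k₀) Prod.fst p.1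

/-- Apply an isomorphism blockwise. -/
noncomputable def transfer (F : (P.str I).U → (Q.str I').U) {J₁ B : Set I} {J₂ B' : Set I'}
    (b' : B') (k₀ : J) (x : (P.str (J₁ ⊕ (J × B))).U) : (Q.str (J₂ ⊕ (J × B'))).U :=
  Q.map (label b' (blockOf k₀ x)) (F (P.map forget x))

theorem label_forget {J₁ B : Set I} (hd : ∀ i ∈ B, i ∉ J₁) (b₀ : B) (k₀ : J)
    (x : (P.str (J₁ ⊕ (J × B))).U) :
    P.map (label (J₁ := J₁) b₀ (blockOf k₀ x)) (P.map forget x) = x := by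
  rcases x with c | ⟨⟨i, hi⟩ | ⟨k, ⟨i, hi⟩⟩, d⟩
  · rfl
  · simp [map, label, forget, blockOf, hi]
  · simp [map, label, forget, blockOf, hi, hd i hi]

theorem label_eq_of_mem {J₁ B : Set I} (b₀ : B) (k k' : J) {y : (P.str I).U}
    (hy : y ∈ P.part J₁) :
    P.map (label (J₁ := J₁) b₀ k) y = P.map (label (J₁ := J₁) b₀ k') y := by
  rcases y with c | ⟨i, d⟩
  · rfl
  · simp [map, label, show i ∈ J₁ from hy]

theorem forget_mem {J₁ B : Set I} (x : (P.str (J₁ ⊕ (J × B))).U) :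
    P.map forget x ∈ P.part (J₁ ∪ B) := by
  rcases x with c | ⟨⟨i, hi⟩ | ⟨k, ⟨i, hi⟩⟩, d⟩
  · trivial
  · exact Or.inl hi
  · exact Or.inr hi

theorem blockOf_eq {J₁ B : Set I} (k₀ : J) (x : (P.str (J₁ ⊕ (J × B))).U)
    (hd : ∀ i ∈ B, i ∉ J₁) (h : P.map forget x ∈ P.part J₁) : blockOf k₀ x = k₀ := by
  rcases x with c | ⟨⟨i, hi⟩ | ⟨k, ⟨i, hi⟩⟩, d⟩
  · rfl
  · rfl
  · exact absurd (show i ∈ J₁ from h) (hd i hi)

theorem forget_label {J₁ B : Set I} (b₀ : B) (k : J) {y : (P.str I).U}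
    (hy : y ∈ P.part (J₁ ∪ B)) :
    P.map forget (P.map (label (J₁ := J₁) b₀ k) y) = y := by
  rcases y with c | ⟨i, d⟩
  · rfl
  · by_cases h : i ∈ J₁
    · simp [map, label, forget, h]
    · simp [map, label, forget, h, (show i ∈ B from (or_iff_right h).1 hy)]

theorem blockOf_label {J₁ B : Set I} (b₀ : B) (k₀ k : J) (y : (P.str I).U) :
    (y ∈ P.part J₁ → blockOf k₀ (P.map (label (J₁ := J₁) b₀ k) y) = k₀) ∧
      (y ∉ P.part J₁ → blockOf k₀ (P.map (label (J₁ := J₁) b₀ k) y) = k) := by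
  rcases y with c | ⟨i, d⟩
  · exact ⟨fun _ => rfl, fun h => absurd trivial h⟩
  · refine ⟨fun h => ?_, fun h => ?_⟩
    · simp [map, label, blockOf, show i ∈ J₁ from h]
    · have h' : i ∉ J₁ := h
      by_cases hB : i ∈ B <;> simp [map, label, blockOf, h', hB]

theorem transfer_spec (F : (P.str I).U ≃ (Q.str I').U) (hF : IsIso (P.str I) (Q.str I') F)
    {J₁ B : Set I} {J₂ B' : Set I'} (hd : ∀ i ∈ B, i ∉ J₁) (b : B) (b' : B') (k₀ : J)
    (hbase : ∀ x, F x ∈ Q.part J₂ ↔ x ∈ P.part J₁)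
    (hall : ∀ x, F x ∈ Q.part (J₂ ∪ B') ↔ x ∈ P.part (J₁ ∪ B)) :
    (∀ x, transfer F.symm b k₀ (transfer F (J₁ := J₁) (B := B) (J₂ := J₂) b' k₀ x) = x) ∧
    ∀ s f, (P.str (J₁ ⊕ (J × B))).rel s f →
      (Q.str (J₂ ⊕ (J × B'))).rel s fun a => transfer F b' k₀ (f a) := by
  have hmem : ∀ x : (P.str (J₁ ⊕ (J × B))).U, F (P.map forget x) ∈ Q.part (J₂ ∪ B') :=
    fun x => (hall _).2 (forget_mem x)
  refine ⟨fun x => ?_, fun s f hf => ?_⟩
  · unfold transfer
    rw [forget_label b' _ (hmem x), F.symm_apply_apply]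
    by_cases h : P.map forget x ∈ P.part J₁
    · rw [(blockOf_label b' k₀ _ _).1 ((hbase _).2 h), ← blockOf_eq k₀ x hd h]
      exact label_forget hd b k₀ x
    · rw [(blockOf_label b' k₀ _ _).2 (mt (hbase _).1 h)]
      exact label_forget hd b k₀ x
  · obtain ⟨j, g, hg, hfg⟩ := hf
    have h1 : (P.str I).rel s fun a => P.map forget (f a) :=
      ⟨forget j, g, hg, fun a => (congrArg (P.map forget) (hfg a)).trans (P.map_lift _ j _)⟩
    have hk : ∀ a, transfer F (J₂ := J₂) b' k₀ (f a) =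
        Q.map (label (J₁ := J₂) b' (Sum.elim (fun _ => k₀) Prod.fst j)) (F (P.map forget (f a))) := by
      intro a
      unfold transfer
      rw [hfg a]
      rcases g a with c | d
      · exact label_eq_of_mem b' _ _ ((hbase _).2 trivial)
      · rfl
    simp only [hk]
    exact Q.rel_map (label b' (Sum.elim (fun _ => k₀) Prod.fst j)) ((hF s _).2 h1)

end Blocks

/-- An isomorphism between replications with many copies gives one for every larger number of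
copies. -/
theorem iso_stretch {I I' J : Type u} {L : Cardinal.{u}} (hL : ℵ₀ ≤ L) (hC : #P.Cc ≤ L)
    (hD : #P.D ≤ L) (hC' : #Q.Cc ≤ L) (hD' : #Q.D ≤ L) [Nonempty P.D] (hI : L < #I)
    (hJ : L < #J) (F : (P.str I).U ≃ (Q.str I').U) (hF : IsIso (P.str I) (Q.str I') F) :
    ∃ E : (P.str J).U ≃ (Q.str J).U, IsIso (P.str J) (Q.str J) E := by
  classical
  have h0 : #(∅ : Set I) ≤ L := by simp
  have h0' : #(∅ : Set I') ≤ L := by simp
  obtain ⟨J₁, J₂, -, -, hJ₁, hJ₂, hbase⟩ := exists_closed hL hC hD hC' hD' F h0 h0'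
  have hcompl : L ≤ #(J₁ᶜ : Set I) := by
    by_contra! h
    have h1 : #I ≤ #J₁ + #(J₁ᶜ : Set I) := (mk_sum_compl J₁).ge
    exact absurd (h1.trans (add_le_of_le hL hJ₁ h.le)) (not_le.2 hI)
  obtain ⟨S, hS, hSc⟩ := le_mk_iff_exists_subset.1 hcompl
  obtain ⟨K₁, K₂, hSK, hK₂, hK₁c, hK₂c, hall'⟩ := exists_closed hL hC hD hC' hD' F
    (S := J₁ ∪ S) (S' := J₂) ((mk_union_le _ _).trans (add_le_of_le hL hJ₁ hSc.le)) hJ₂
  obtain ⟨B, hB⟩ : ∃ B : Set I, B = K₁ \ J₁ := ⟨_, rfl⟩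
  obtain ⟨B', hB'⟩ : ∃ B' : Set I', B' = K₂ \ J₂ := ⟨_, rfl⟩
  have hall : ∀ x, F x ∈ Q.part (J₂ ∪ B') ↔ x ∈ P.part (J₁ ∪ B) := by
    rw [hB, hB', union_sdiff_cancel hK₂,
      union_sdiff_cancel (subset_union_left.trans hSK)]
    exact hall'
  obtain ⟨b, hb⟩ : B.Nonempty := by
    have : Nonempty S := mk_ne_zero_iff.1 (by
      rw [hSc]; exact (lt_of_lt_of_le aleph0_pos hL).ne')
    obtain ⟨⟨s, hs⟩⟩ := this
    exact ⟨s, by rw [hB]; exact ⟨hSK (Or.inr hs), hS hs⟩⟩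
  obtain ⟨b', hb'⟩ : B'.Nonempty := by
    obtain ⟨d⟩ := (inferInstance : Nonempty P.D)
    have h1 : F (Sum.inr (b, d)) ∈ Q.part (J₂ ∪ B') := (hall _).2 (Or.inr hb)
    have h2 : F (Sum.inr (b, d)) ∉ Q.part J₂ := fun h => by
      have h3 : b ∈ J₁ := (hbase _).1 h
      rw [hB] at hb
      exact hb.2 h3
    rcases hFx : F (Sum.inr (b, d)) with c | ⟨i, e⟩
    · rw [hFx] at h2; exact absurd trivial h2
    · rw [hFx] at h1 h2
      exact ⟨i, (or_iff_right (show i ∉ J₂ from h2)).1 h1⟩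
  have hd : ∀ i ∈ B, i ∉ J₁ := fun i hi => by rw [hB] at hi; exact hi.2
  have hd' : ∀ i ∈ B', i ∉ J₂ := fun i hi => by rw [hB'] at hi; exact hi.2
  obtain ⟨k₀⟩ : Nonempty J := mk_ne_zero_iff.1 (lt_of_le_of_lt (zero_le) hJ).ne'
  obtain ⟨h1, h2⟩ := transfer_spec (J := J) F hF hd ⟨b, hb⟩ ⟨b', hb'⟩ k₀ hbase hall
  have hbase' : ∀ y, F.symm y ∈ P.part J₁ ↔ y ∈ Q.part J₂ := fun y => by
    rw [← hbase, F.apply_symm_apply]
  have hall'' : ∀ y, F.symm y ∈ P.part (J₁ ∪ B) ↔ y ∈ Q.part (J₂ ∪ B') := fun y => by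
    rw [← hall, F.apply_symm_apply]
  obtain ⟨h1', h2'⟩ := transfer_spec (J := J) F.symm hF.symm hd' ⟨b', hb'⟩ ⟨b, hb⟩ k₀ hbase' hall''
  rw [Equiv.symm_symm] at h1'
  let E₀ : (P.str (J₁ ⊕ (J × B))).U ≃ (Q.str (J₂ ⊕ (J × B'))).U :=
    ⟨transfer F ⟨b', hb'⟩ k₀, transfer F.symm ⟨b, hb⟩ k₀, h1, h1'⟩
  have hE₀ : IsIso _ _ E₀ := fun s f => ⟨fun h => by
    have := h2' s _ h
    have e : (fun a => transfer F.symm ⟨b, hb⟩ k₀ (E₀ (f a))) = f := funext fun a => h1 (f a)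
    rwa [e] at this, h2 s f⟩
  have hcard : ∀ {A : Type u} (U : Set A) (V : Set A), #U ≤ L → #V ≤ L → V.Nonempty →
      Nonempty (J ≃ U ⊕ (J × V)) := by
    intro A U V hU hV hne
    have : Nonempty V := hne.to_subtype
    refine Cardinal.eq.1 (le_antisymm ?_ ?_)
    · exact mk_le_of_injective (f := fun j => Sum.inr (j, Classical.arbitrary V))
        (fun i j h => congrArg Prod.fst (Sum.inr.inj h))
    · simp only [mk_sum, mk_prod, lift_id]
      refine add_le_of_le (hL.trans hJ.le) (hU.trans hJ.le) ?_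
      exact (mul_le_mul' le_rfl (hV.trans hJ.le)).trans (mul_eq_self (hL.trans hJ.le)).le
  obtain ⟨e⟩ := hcard J₁ B hJ₁ (by
    rw [hB]; exact (mk_le_mk_of_subset sdiff_subset).trans hK₁c) ⟨b, hb⟩
  obtain ⟨e'⟩ := hcard J₂ B' hJ₂ (by
    rw [hB']; exact (mk_le_mk_of_subset sdiff_subset).trans hK₂c) ⟨b', hb'⟩
  obtain ⟨Ea, hEa⟩ := P.iso_congr e
  obtain ⟨Eb, hEb⟩ := Q.iso_congr e'.symm
  exact ⟨Ea.trans (E₀.trans Eb), hEa.trans (hE₀.trans hEb)⟩

end Pat

end Vale.Agent.P307
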