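import Mathlib
import Vale.Agent.P307.Rep
import Vale.Agent.P307.Directed

/-!
Twin families in a model give replications of every large size in the class.
-/

namespace Vale.Agent.P307

open Cardinal Set

universe u

variable {σ : Type u} {ar : σ → ℕ}

namespace Pat

variable (P : Pat σ ar)

/-- Two block points occur in one relation tuple. -/
def BlockAdj (d e : P.D) : Prop :=
  ∃ s g, P.rel s g ∧ (∃ a, g a = Sum.inr d) ∧ ∃ b, g b = Sum.inr e

/-- The block is connected. -/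
def Conn : Prop := ∀ d e : P.D, Relation.EqvGen P.BlockAdj d e

end Pat

/-- Pairwise interchangeable small sets over a core. -/
structure Twins (M : Str σ ar) where
  /-- The core. -/
  C : Set M.U
  /-- The index set. -/
  J : Type u
  /-- The shape of one twin. -/
  D : Type u
  /-- The embedding of the twins. -/
  emb : J × D → M.U
  inj : Function.Injective emb
  disj : ∀ p, emb p ∉ C
  loc : ∀ s f, M.rel s f → (∃ a p, f a = emb p) →
    ∃ j, ∀ a, f a ∈ C ∨ ∃ d, f a = emb (j, d)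
  indisc : ∀ s (j j' : J) (g : Fin (ar s) → C ⊕ D),
    M.rel s (fun a => Sum.elim (fun c : C => (c : M.U)) (fun d => emb (j, d)) (g a)) →
    M.rel s (fun a => Sum.elim (fun c : C => (c : M.U)) (fun d => emb (j', d)) (g a))

namespace Twins

variable {M : Str σ ar} (T : Twins M)

/-- The pattern of a twin family. -/
abbrev pat : Pat σ ar :=
  ⟨T.C, T.D, fun s g => ∃ j,
    M.rel s fun a => Sum.elim (fun c : T.C => (c : M.U)) (fun d => T.emb (j, d)) (g a)⟩

/-- Copies are sent to twins. -/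
def toM {I : Type u} (v : I → T.J) (x : (T.pat.str I).U) : M.U :=
  Sum.elim (fun c : T.C => (c : M.U)) (fun p => T.emb (v p.1, p.2)) x

theorem toM_lift {I : Type u} (v : I → T.J) (j : I) (y : T.C ⊕ T.D) :
    T.toM v (T.pat.lift j y) = Sum.elim (fun c : T.C => (c : M.U)) (fun d => T.emb (v j, d)) y := by
  cases y <;> rfl

theorem toM_injOn {I : Type u} {v : I → T.J} {K : Set I} (hv : InjOn v K) :
    InjOn (T.toM v) (T.pat.part K) := by
  rintro (c | ⟨i, d⟩) hx (c' | ⟨i', d'⟩) hy h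
  · exact congrArg Sum.inl (Subtype.ext h)
  · have h' : (c : M.U) = T.emb (v i', d') := h
    exact absurd (h' ▸ c.2) (T.disj _)
  · have h' : T.emb (v i, d) = (c' : M.U) := h
    exact absurd (h' ▸ c'.2) (T.disj _)
  · have h1 : (v i, d) = (v i', d') := T.inj h
    obtain rfl := hv hx hy (Prod.ext_iff.1 h1).1
    obtain rfl := (Prod.ext_iff.1 h1).2
    rfl

theorem rel_toM_iff {I : Type u} {v : I → T.J} {K : Set I} (hv : InjOn v K) (hK : K.Nonempty)
    {s : σ} {f : Fin (ar s) → (T.pat.str I).U} (hf : ∀ a, f a ∈ T.pat.part K) :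
    (M.rel s fun a => T.toM v (f a)) ↔ (T.pat.str I).rel s f := by
  constructor
  · intro h
    by_cases ht : ∃ a p, f a = Sum.inr p
    · obtain ⟨a₀, ⟨i₀, d₀⟩, ha₀⟩ := ht
      obtain ⟨j, hj⟩ := T.loc s _ h ⟨a₀, (v i₀, d₀), by rw [ha₀]; rfl⟩
      have hsame : ∀ a i d, f a = Sum.inr (i, d) → v i = j := by
        intro a i d ha
        rcases hj a with hC | ⟨d', hd'⟩
        · rw [ha] at hC; exact absurd hC (T.disj _)
        · rw [ha] at hd'; exact congrArg Prod.fst (T.inj hd')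
      let g : Fin (ar s) → T.C ⊕ T.D := fun a => Sum.map id Prod.snd (f a)
      have hfg : ∀ a, f a = T.pat.lift i₀ (g a) := by
        intro a
        rcases hfa : f a with c | ⟨i, d⟩
        · simp [g, hfa, Pat.lift]
        · have h1 := hf a
          have h2 := hf a₀
          rw [hfa] at h1
          rw [ha₀] at h2
          obtain rfl := hv h1 h2 ((hsame a i d hfa).trans (hsame a₀ i₀ d₀ ha₀).symm)
          simp [g, hfa, Pat.lift]
      refine ⟨i₀, g, ⟨v i₀, ?_⟩, hfg⟩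
      convert h using 1
      funext a
      rw [hfg a, toM_lift]
    · push Not at ht
      obtain ⟨k, -⟩ := hK
      have hc : ∀ a, ∃ c, f a = Sum.inl c := fun a => by
        rcases hfa : f a with c | p
        · exact ⟨c, rfl⟩
        · exact absurd hfa (ht a p)
      choose g hg using hc
      refine ⟨k, fun a => Sum.inl (g a), ⟨v k, ?_⟩, fun a => hg a⟩
      convert h using 1
      funext a
      rw [hg a]; rfl
  · rintro ⟨i, g, ⟨j, hj⟩, hfg⟩
    have := T.indisc s j (v i) g hj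
    convert this using 1
    funext a
    rw [hfg a, toM_lift]

/-- A larger core. -/
def extend (C' : Set M.U) (hC : T.C ⊆ C') (hd : ∀ p, T.emb p ∉ C') : Twins M where
  C := C'
  J := T.J
  D := T.D
  emb := T.emb
  inj := T.inj
  disj := hd
  loc s f h ht := by
    obtain ⟨j, hj⟩ := T.loc s f h ht
    exact ⟨j, fun a => (hj a).imp_left fun h => hC h⟩
  indisc s j j' g h := by
    by_cases ht : ∃ a d, g a = Sum.inr d
    · obtain ⟨a₀, d₀, ha₀⟩ := ht
      obtain ⟨j₁, hj₁⟩ := T.loc s _ h ⟨a₀, (j, d₀), by simp [ha₀]⟩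
      have hc : ∀ a c, g a = Sum.inl c → (c : M.U) ∈ T.C := by
        intro a c ha
        rcases hj₁ a with hC' | ⟨d, hd'⟩
        · simpa [ha] using hC'
        · simp only [ha, Sum.elim_inl] at hd'
          exact absurd (hd' ▸ c.2) (hd _)
      let g₀ : Fin (ar s) → T.C ⊕ T.D := fun a =>
        match hga : g a with
        | Sum.inl c => Sum.inl ⟨c, hc a c hga⟩
        | Sum.inr d => Sum.inr d
      have e : ∀ i a, Sum.elim (fun c : C' => (c : M.U)) (fun d => T.emb (i, d)) (g a) =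
          Sum.elim (fun c : T.C => (c : M.U)) (fun d => T.emb (i, d)) (g₀ a) := by
        intro i a
        simp only [g₀]
        split <;> rename_i hga <;> simp [hga]
      simp only [e] at h ⊢
      exact T.indisc s j j' g₀ h
    · push Not at ht
      convert h using 1
      funext a
      rcases hga : g a with c | d
      · rfl
      · exact absurd hga (ht a d)

theorem extend_conn (C' : Set M.U) (hC : T.C ⊆ C') (hd : ∀ p, T.emb p ∉ C') (h : T.pat.Conn) :
    (T.extend C' hC hd).pat.Conn := by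
  intro d e
  refine Relation.EqvGen.mono ?_ _ _ (h d e)
  rintro d e ⟨s, g, ⟨j, hj⟩, ⟨a, ha⟩, b, hb⟩
  let incl : T.C ⊕ T.D → C' ⊕ T.D := Sum.map (fun c => ⟨c, hC c.2⟩) id
  refine ⟨s, fun k => incl (g k), ⟨j, ?_⟩, ⟨a, ?_⟩, b, ?_⟩
  · convert hj using 1
    funext k
    change Sum.elim _ _ (incl (g k)) = _
    rcases g k with c | d <;> rfl
  · exact congrArg incl ha
  · exact congrArg incl hb

open Classical in
/-- Permuting the twins. -/
noncomputable def perm (π : T.J ≃ T.J) (x : M.U) : M.U :=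
  if h : ∃ p, T.emb p = x then T.emb (π h.choose.1, h.choose.2) else x

theorem perm_emb (π : T.J ≃ T.J) (j : T.J) (d : T.D) : T.perm π (T.emb (j, d)) = T.emb (π j, d) := by
  have h : ∃ p, T.emb p = T.emb (j, d) := ⟨_, rfl⟩
  rw [perm, dif_pos h, T.inj h.choose_spec]

theorem perm_of_notMem (π : T.J ≃ T.J) {x : M.U} (h : ∀ p, T.emb p ≠ x) : T.perm π x = x :=
  dif_neg fun ⟨p, hp⟩ => h p hp

theorem exists_aut (π : T.J ≃ T.J) : ∃ E : M.U ≃ M.U, IsIso M M E ∧
    (∀ j d, E (T.emb (j, d)) = T.emb (π j, d)) ∧ ∀ x, (∀ p, T.emb p ≠ x) → E x = x := by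
  have inv : ∀ π : T.J ≃ T.J, ∀ x, T.perm π.symm (T.perm π x) = x := by
    intro π x
    by_cases h : ∃ p, T.emb p = x
    · obtain ⟨⟨j, d⟩, rfl⟩ := h
      rw [perm_emb, perm_emb, Equiv.symm_apply_apply]
    · push Not at h
      rw [T.perm_of_notMem π h, T.perm_of_notMem _ h]
  have fwd : ∀ π : T.J ≃ T.J, ∀ s f, M.rel s f → M.rel s fun a => T.perm π (f a) := by
    intro π s f h
    by_cases ht : ∃ a p, f a = T.emb p
    · obtain ⟨j, hj⟩ := T.loc s f h ht
      have hg : ∀ a, ∃ y : T.C ⊕ T.D,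
          f a = Sum.elim (fun c : T.C => (c : M.U)) (fun d => T.emb (j, d)) y := fun a => by
        rcases hj a with hC | ⟨d, hd⟩
        · exact ⟨Sum.inl ⟨_, hC⟩, rfl⟩
        · exact ⟨Sum.inr d, hd⟩
      choose g hg using hg
      have := T.indisc s j (π j) g (by convert h using 1; exact funext fun a => (hg a).symm)
      convert this using 1
      funext a
      rw [hg a]
      rcases g a with c | d
      · exact T.perm_of_notMem π fun p hp => T.disj p (hp ▸ c.2)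
      · exact T.perm_emb π j d
    · push Not at ht
      convert h using 1
      funext a
      exact T.perm_of_notMem π fun p hp => ht a p hp.symm
  refine ⟨⟨T.perm π, T.perm π.symm, inv π, fun x => by simpa using inv π.symm x⟩,
    fun s f => ⟨fun h => ?_, fwd π s f⟩, T.perm_emb π, fun x hx => T.perm_of_notMem π hx⟩
  have := fwd π.symm s _ h
  simpa [inv] using this

/-- A model with many twins yields every large replication of an extended pattern. -/
theorem exists_pat_mem {l L : Cardinal.{u}} (K : AEC σ ar l) (hl : l ≤ L) (hL : ℵ₀ ≤ L)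
    (hM : K.mem M) (hC : #T.C ≤ L) (hD : #T.D ≤ L) [Nonempty T.D] (hJ : L < #T.J) :
    ∃ P : Pat σ ar, #P.Cc ≤ L ∧ #P.D ≤ L ∧ Nonempty P.D ∧ (T.pat.Conn → P.Conn) ∧
      ∀ I : Type u, L ≤ #I → K.mem (P.str I) := by
  classical
  obtain ⟨F₀, hF₀⟩ := le_mk_iff_exists_set.1 hJ.le
  let tw : Set T.J → Set M.U := fun A => range fun p : A × T.D => T.emb (p.1, p.2)
  let idx : Set M.U → Set T.J := fun X => {j | ∃ d, T.emb (j, d) ∈ X}
  have htw : ∀ A : Set T.J, #A ≤ L → #(tw A) ≤ L := fun A hA => mk_range_le.trans (by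
    rw [mk_prod, lift_id, lift_id]
    exact (mul_le_mul' hA hD).trans (mul_eq_self hL).le)
  have hidx : ∀ X, #(idx X) ≤ #X := fun X =>
    mk_le_of_injective (f := fun j : idx X => (⟨T.emb (j.1, j.2.choose), j.2.choose_spec⟩ : X))
      fun i j h => Subtype.ext (congrArg Prod.fst (T.inj (congrArg Subtype.val h)))
  have step : ∀ X : {X : Set M.U // #X ≤ L}, ∃ Y, X.1 ∪ tw (idx X.1) ⊆ Y ∧ K.strong M Y ∧
      #Y ≤ L := by
    intro X
    obtain ⟨Y, h1, h2, h3⟩ := K.ls M (X.1 ∪ tw (idx X.1)) hM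
    exact ⟨Y, h1, h2, h3.trans (add_le_of_le hL ((mk_union_le _ _).trans
      (add_le_of_le hL X.2 (htw _ ((hidx _).trans X.2)))) hl)⟩
  choose Y hY1 hY2 hY3 using step
  let X : ℕ → {X : Set M.U // #X ≤ L} := fun n => (fun X => ⟨Y X, hY3 X⟩)^[n]
    ⟨T.C ∪ tw F₀, (mk_union_le _ _).trans (add_le_of_le hL hC (htw _ hF₀.le))⟩
  have hX : ∀ n, (X (n + 1)).1 = Y (X n) := fun n => by
    simp only [X, Function.iterate_succ_apply']
  have hmono : Monotone fun n : ℕ => Y (X n) := monotone_nat_of_le_succ fun n x hx =>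
    hY1 _ (Or.inl (by rw [hX]; exact hx))
  let S : Set M.U := ⋃ n : ULift.{u} ℕ, Y (X n.down)
  have hS : K.strong M S := K.smooth M _ _ (fun a b hab => hmono (ULift.down_le.2 hab)) fun n => hY2 _
  have hSc : #S ≤ L := by
    calc #S ≤ #(ULift.{u} ℕ) * ⨆ n : ULift.{u} ℕ, #(Y (X n.down)) :=
          mk_iUnion_le (fun n : ULift.{u} ℕ => Y (X n.down))
      _ ≤ L * L := by
          refine mul_le_mul' ?_ (ciSup_le' fun n => hY3 _)
          rw [mk_uLift, mk_nat, lift_aleph0]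
          exact hL
      _ = L := mul_eq_self hL
  let J₁ := idx S
  have hJ₁ : ∀ j ∈ J₁, ∀ d, T.emb (j, d) ∈ S := by
    rintro j ⟨d₀, hd₀⟩ d
    obtain ⟨n, hn⟩ := mem_iUnion.1 hd₀
    exact mem_iUnion.2 ⟨⟨n.down + 1⟩,
      hY1 _ (Or.inr ⟨(⟨j, ⟨d₀, by rw [hX]; exact hn⟩⟩, d), rfl⟩)⟩
  have hstart : T.C ∪ tw F₀ ⊆ S := fun x hx => mem_iUnion.2 ⟨⟨0⟩, hY1 _ (Or.inl hx)⟩
  have hJ₁c : #J₁ = L := by
    refine le_antisymm ((hidx S).trans hSc) (hF₀ ▸ mk_le_mk_of_subset fun j hj => ?_)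
    exact ⟨Classical.arbitrary T.D, hstart (Or.inr ⟨(⟨j, hj⟩, _), rfl⟩)⟩
  obtain ⟨C', hC'⟩ : ∃ C' : Set M.U, C' = {x ∈ S | ∀ p, T.emb p ≠ x} := ⟨_, rfl⟩
  have good : ∀ Jh : Set T.J, #Jh = L → K.strong M (C' ∪ tw Jh) := by
    intro Jh hJh
    have hc1 : #(J₁ᶜ : Set T.J) = #T.J := by
      have : Infinite T.J := infinite_iff.2 (hL.trans hJ.le)
      exact mk_compl_of_infinite _ (hJ₁c.le.trans_lt hJ)
    have hc2 : #(Jhᶜ : Set T.J) = #T.J := by
      have : Infinite T.J := infinite_iff.2 (hL.trans hJ.le)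
      exact mk_compl_of_infinite _ (hJh.le.trans_lt hJ)
    obtain ⟨e₁⟩ := Cardinal.eq.1 (hJ₁c.trans hJh.symm)
    obtain ⟨e₂⟩ := Cardinal.eq.1 (hc1.trans hc2.symm)
    let π : T.J ≃ T.J := (Equiv.Set.sumCompl J₁).symm.trans
      ((Equiv.sumCongr e₁ e₂).trans (Equiv.Set.sumCompl Jh))
    have hπ : ∀ j, π j ∈ Jh ↔ j ∈ J₁ := by
      intro j
      by_cases h : j ∈ J₁
      · simp [π, Equiv.Set.sumCompl_symm_apply_of_mem h, h]
      · simp [π, Equiv.Set.sumCompl_symm_apply_of_notMem h, h]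
        exact (e₂ ⟨j, h⟩).2
    obtain ⟨E, hE, hE1, hE2⟩ := T.exists_aut π
    convert K.strong_iso M M E hE S hS using 1
    ext y
    obtain ⟨x, rfl⟩ := E.surjective y
    rw [E.injective.mem_set_image]
    by_cases h : ∃ p, T.emb p = x
    · obtain ⟨⟨j, d⟩, rfl⟩ := h
      rw [hE1]
      constructor
      · rintro (h | ⟨⟨⟨i, hi⟩, e⟩, he⟩)
        · rw [hC'] at h; exact absurd rfl (h.2 (π j, d))
        · have := T.inj he
          simp only [Prod.mk.injEq] at this
          exact hJ₁ j ((hπ j).1 (this.1 ▸ hi)) d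
      · intro h
        exact Or.inr ⟨(⟨π j, (hπ j).2 ⟨d, h⟩⟩, d), rfl⟩
    · push Not at h
      rw [hE2 x h]
      refine ⟨?_, fun hx => Or.inl (by rw [hC']; exact ⟨hx, h⟩)⟩
      rintro (hx | ⟨p, hp⟩)
      · rw [hC'] at hx; exact hx.1
      · exact absurd hp (h _)
  let P := (T.extend {x ∈ S | ∀ p, T.emb p ≠ x}
    (fun x hx => ⟨hstart (Or.inl hx), fun p hp => T.disj p (hp ▸ hx)⟩) (fun p hp => hp.2 p rfl))
  have hCc : #P.C ≤ L := (mk_le_mk_of_subset (fun x (hx : x ∈ P.C) => hx.1)).trans hSc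
  refine ⟨P.pat, hCc, hD, ‹_›, T.extend_conn _ _ _, fun I hI => ?_⟩
  have hne : Nonempty P.D := ‹_›
  let Good : Set (P.pat.str I).U → Prop := fun A => ∃ K₂ : Set I, L ≤ #K₂ ∧ A = P.pat.part K₂
  have hinj : ∀ K₁ K₂ : Set I, P.pat.part K₁ ⊆ P.pat.part K₂ → K₁ ⊆ K₂ := fun K₁ K₂ h i hi =>
    h (show (Sum.inr (i, Classical.arbitrary P.D) : (P.pat.str I).U) ∈ P.pat.part K₁ from hi)
  have := (K.mem_of_good hL Good ?_ ?_ Set.univ ⟨Set.univ, hI.trans mk_univ.ge, ?_⟩).1
  · exact K.mem_iso _ _ (Equiv.Set.univ _) (fun _ _ => Iff.rfl) this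
  · rintro J J' ⟨K₁, hK₁, rfl⟩ ⟨K₂, hK₂, rfl⟩ hsub A hA
    obtain ⟨S₀, hS₀, hS₀c⟩ := le_mk_iff_exists_subset.1 hK₂
    have hidA : P.pat.idx A ⊆ K₁ := fun i ⟨d, hd⟩ => hA hd
    refine ⟨P.pat.part (P.pat.idx A ∪ S₀), (P.pat.subset_part_idx A).trans
      (P.pat.part_mono subset_union_left), P.pat.part_mono (union_subset hidA
      (hS₀.trans (hinj _ _ hsub))), ⟨_, hS₀c ▸ mk_le_mk_of_subset subset_union_right, rfl⟩,
      ⟨(P.pat.idx A ∪ S₀) ∩ K₂, hS₀c ▸ mk_le_mk_of_subset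
        (fun i hi => ⟨Or.inr hi, hS₀ hi⟩), ?_⟩, ?_⟩
    · ext (c | ⟨i, d⟩) <;> simp [Pat.part]
    · refine P.pat.mk_part_le (hL.trans (le_max_right _ _)) (hCc.trans (le_max_right _ _))
        (hD.trans (le_max_right _ _)) ((mk_union_le _ _).trans (add_le_of_le
          (hL.trans (le_max_right _ _)) ((P.pat.mk_idx_le A).trans (le_max_left _ _))
          (hS₀c.le.trans (le_max_right _ _))))
  · rintro J ⟨K₁, hK₁, rfl⟩ hJc
    have hK₁c : #K₁ = L := le_antisymm ((mk_le_of_injective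
      (f := fun i : K₁ => (⟨Sum.inr (i.1, Classical.arbitrary P.D), i.2⟩ : P.pat.part K₁))
      fun i j h => Subtype.ext (congrArg Prod.fst
        (Sum.inr.inj (congrArg Subtype.val h)))).trans hJc) hK₁
    obtain ⟨e⟩ := Cardinal.eq.1 (hK₁c.trans hJ₁c.symm)
    obtain ⟨j₀⟩ : Nonempty T.J := mk_ne_zero_iff.1 (lt_of_le_of_lt (zero_le) hJ).ne'
    let v : I → T.J := fun i => if h : i ∈ K₁ then e ⟨i, h⟩ else j₀
    have hv : InjOn v K₁ := fun i hi j hj h => by
      simp only [v, dif_pos hi, dif_pos hj] at h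
      exact congrArg Subtype.val (e.injective (Subtype.val_injective h))
    have hne₁ : K₁.Nonempty := nonempty_iff_ne_empty'.1 (mk_ne_zero_iff.1 (by
      rw [hK₁c]; exact (lt_of_lt_of_le aleph0_pos hL).ne')) |> nonempty_iff_ne_empty.2
    have himg : ∀ K₂ ⊆ K₁, P.toM v '' P.pat.part K₂ = C' ∪ tw (v '' K₂) := by
      intro K₂ _
      ext y
      constructor
      · rintro ⟨c | ⟨i, d⟩, hx, rfl⟩
        · exact Or.inl (hC' ▸ c.2)
        · exact Or.inr ⟨(⟨v i, i, hx, rfl⟩, d), rfl⟩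
      · rintro (hy | ⟨⟨⟨j, i, hi, hij⟩, d⟩, hy⟩)
        · exact ⟨Sum.inl ⟨y, (by rw [hC'] at hy; exact hy)⟩, trivial, rfl⟩
        · subst hij
          exact ⟨Sum.inr (i, d), hi, hy⟩
    have hvJ₁ : v '' K₁ = J₁ := by
      ext j
      constructor
      · rintro ⟨i, hi, rfl⟩
        simp only [v, dif_pos hi]
        exact (e ⟨i, hi⟩).2
      · intro hj
        exact ⟨(e.symm ⟨j, hj⟩ : K₁), (e.symm ⟨j, hj⟩).2, by simp [v]⟩
    obtain ⟨R, hR⟩ : ∃ R, R = C' ∪ tw (v '' K₁) := ⟨_, rfl⟩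
    let φ : P.pat.part K₁ ≃ R := (Equiv.Set.imageOfInjOn (P.toM v) (P.pat.part K₁)
      (P.toM_injOn hv)).trans (Equiv.setCongr (by rw [hR, himg _ subset_rfl]))
    have hφ : ∀ x, (φ x : M.U) = P.toM v x := fun _ => rfl
    have hiso : IsIso ((P.pat.str I).restr (P.pat.part K₁)) (M.restr R) φ := fun s f =>
      P.rel_toM_iff hv hne₁ (f := fun a => (f a).1) fun a => (f a).2
    have hRs : K.LeOn M R Set.univ := by
      rw [hR, K.leOn_univ, hvJ₁]; exact good J₁ hJ₁c
    refine ⟨K.memOn_iso φ.symm hiso.symm (K.leOn_mem hRs).1, ?_⟩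
    rintro J' hsub ⟨K₂, hK₂, rfl⟩
    have hK₂₁ := hinj _ _ hsub
    have hK₂c : #(v '' K₂) = L := by
      rw [mk_image_eq_of_injOn v K₂ (hv.mono hK₂₁)]
      exact le_antisymm ((mk_le_mk_of_subset hK₂₁).trans hK₁c.le) hK₂
    have hle : K.LeOn M (C' ∪ tw (v '' K₂)) R := by
      refine K.leOn_coherence (K.leOn_univ.2 (good _ hK₂c)) hRs ?_
      rw [hR, ← himg _ hK₂₁, ← himg _ subset_rfl]
      exact image_mono (P.pat.part_mono hK₂₁)
    refine K.leOn_iso φ.symm hiso.symm hsub (fun y => ?_) hle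
    obtain ⟨x, rfl⟩ := φ.surjective y
    rw [φ.symm_apply_apply, hφ, ← himg _ hK₂₁]
    exact ((P.toM_injOn hv).mem_image_iff hsub x.2).symm
  · ext (c | ⟨i, d⟩) <;> simp [Pat.part]

end Twins

end Vale.Agent.P307
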