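import Mathlib
import Vale.Agent.P307.Twins

/-!
Components off the hubs, twin families of components, and upward categoricity transfer.
-/

namespace Vale.Agent.P307

open Cardinal Set

universe u

variable {σ : Type u} {ar : σ → ℕ}

theorem adj_iso {M N : Str σ ar} (e : M.U ≃ N.U) (he : IsIso M N e) (x y : M.U) :
    Adj N (e x) (e y) ↔ Adj M x y := by
  constructor
  · rintro ⟨s, f, hf, ⟨i, hi⟩, j, hj⟩
    exact ⟨s, fun k => e.symm (f k), (he.symm s f).2 hf,
      ⟨i, e.symm_apply_eq.2 hi⟩, j, e.symm_apply_eq.2 hj⟩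
  · rintro ⟨s, f, hf, ⟨i, hi⟩, j, hj⟩
    exact ⟨s, fun k => e (f k), (he s f).2 hf, ⟨i, congrArg e hi⟩, j, congrArg e hj⟩

theorem fewHubs_iso {M N : Str σ ar} (e : M.U ≃ N.U) (he : IsIso M N e) {θ : Cardinal.{u}}
    (h : FewHubs θ M) : FewHubs θ N := by
  refine le_trans (le_of_eq (mk_congr (e.subtypeEquiv fun x => ?_)).symm) h
  change θ < _ ↔ θ < _
  rw [mk_congr (e.subtypeEquiv fun y => (adj_iso e he x y).symm :
    ({y | Adj M x y} : Set M.U) ≃ ({y | Adj N (e x) y} : Set N.U))]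

theorem mk_closure_le {A : Type u} {L : Cardinal.{u}} (hL : ℵ₀ ≤ L) (s : ℕ → Set A)
    (hs : ∀ n, #(s n) ≤ L) : #(⋃ n : ULift.{u} ℕ, s n.down) ≤ L := by
  calc #(⋃ n : ULift.{u} ℕ, s n.down) ≤ #(ULift.{u} ℕ) * ⨆ n : ULift.{u} ℕ, #(s n.down) :=
        mk_iUnion_le (fun n : ULift.{u} ℕ => s n.down)
    _ ≤ L * L := by
        refine mul_le_mul' ?_ (ciSup_le' fun n => hs _)
        rw [mk_uLift, mk_nat, lift_aleph0]
        exact hL
    _ = L := mul_eq_self hL

theorem mk_biUnion_le_of_le {A B : Type u} {L : Cardinal.{u}} (hL : ℵ₀ ≤ L) (s : Set A)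
    (t : A → Set B) (hs : #s ≤ L) (ht : ∀ a ∈ s, #(t a) ≤ L) : #(⋃ a : s, t a) ≤ L :=
  calc #(⋃ a : s, t a) ≤ #s * ⨆ a : s, #(t a.1) := mk_iUnion_le (fun a : s => t a.1)
    _ ≤ L * L := mul_le_mul' hs (ciSup_le' fun a : s => ht a.1 a.2)
    _ = L := mul_eq_self hL

section Components

variable (θ : Cardinal.{u}) (M : Str σ ar)

/-- The hubs. -/
def hub : Set M.U := {x | θ < #({y | Adj M x y} : Set M.U)}

/-- Adjacency off the hubs. -/
def AdjOff (x y : M.U) : Prop := Adj M x y ∧ x ∉ hub θ M ∧ y ∉ hub θ M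

/-- The component of a point off the hubs. -/
def comp (x : M.U) : Set M.U := {y | Relation.EqvGen (AdjOff θ M) x y}

/-- The components. -/
def compSet : Set (Set M.U) := {c | ∃ x, x ∉ hub θ M ∧ c = comp θ M x}

variable {θ M}

theorem adj_symm {x y : M.U} (h : Adj M x y) : Adj M y x := by
  obtain ⟨s, f, hf, hi, hj⟩ := h
  exact ⟨s, f, hf, hj, hi⟩

theorem eqvGen_off {x y : M.U} (h : Relation.EqvGen (AdjOff θ M) x y) :
    x ∈ hub θ M ↔ y ∈ hub θ M := by
  induction h with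
  | rel a b hab => exact iff_of_false hab.2.1 hab.2.2
  | refl a => rfl
  | symm _ _ _ ih => exact ih.symm
  | trans _ _ _ _ _ i₁ i₂ => exact i₁.trans i₂

theorem notMem_hub_of_mem {c : Set M.U} (hc : c ∈ compSet θ M) {y : M.U} (hy : y ∈ c) :
    y ∉ hub θ M := by
  obtain ⟨x, hx, rfl⟩ := hc
  exact fun h => hx ((eqvGen_off hy).2 h)

theorem comp_eq_of_mem {c : Set M.U} (hc : c ∈ compSet θ M) {y : M.U} (hy : y ∈ c) :
    c = comp θ M y := by
  obtain ⟨x, -, rfl⟩ := hc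
  ext z
  have hy : Relation.EqvGen (AdjOff θ M) x y := hy
  exact ⟨fun hz => hy.symm.trans _ _ _ hz, fun hz => hy.trans _ _ _ hz⟩

theorem comp_unique {c c' : Set M.U} (hc : c ∈ compSet θ M) (hc' : c' ∈ compSet θ M) {y : M.U}
    (hy : y ∈ c) (hy' : y ∈ c') : c = c' :=
  (comp_eq_of_mem hc hy).trans (comp_eq_of_mem hc' hy').symm

theorem mem_of_adj {c : Set M.U} (hc : c ∈ compSet θ M) {y z : M.U} (hy : y ∈ c)
    (h : Adj M y z) : z ∈ hub θ M ∪ c := by
  by_cases hz : z ∈ hub θ M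
  · exact Or.inl hz
  · have hy' := notMem_hub_of_mem hc hy
    obtain ⟨x, hx, rfl⟩ := hc
    exact Or.inr (Relation.EqvGen.trans _ _ _ hy (.rel _ _ ⟨h, hy', hz⟩))

theorem tuple_mem {c : Set M.U} (hc : c ∈ compSet θ M) {s : σ} {f : Fin (ar s) → M.U}
    (hf : M.rel s f) {a : Fin (ar s)} (ha : f a ∈ c) (b : Fin (ar s)) :
    f b ∈ hub θ M ∪ c :=
  mem_of_adj hc ha ⟨s, f, hf, ⟨a, rfl⟩, b, rfl⟩

theorem mk_comp_le (hθ : ℵ₀ ≤ θ) {c : Set M.U} (hc : c ∈ compSet θ M) : #c ≤ θ := by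
  obtain ⟨x, hx, rfl⟩ := hc
  let step : Set M.U → Set M.U := fun A => A ∪ ⋃ a : A, {y | AdjOff θ M a y}
  let L : ℕ → Set M.U := fun n => step^[n] {x}
  have hL : ∀ n, L (n + 1) = step (L n) := fun n => Function.iterate_succ_apply' _ _ _
  have hnb : ∀ a, #({y | AdjOff θ M a y} : Set M.U) ≤ θ := by
    intro a
    by_cases ha : a ∈ hub θ M
    · refine le_of_eq_of_le (mk_eq_zero_iff.2 ⟨fun y => y.2.2.1 ha⟩) (zero_le)
    · exact (mk_le_mk_of_subset fun y hy => hy.1).trans (not_lt.1 ha)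
  have hsub : comp θ M x ⊆ ⋃ n : ULift.{u} ℕ, L n.down := by
    suffices ∀ a b, Relation.EqvGen (AdjOff θ M) a b →
        (a ∈ ⋃ n : ULift.{u} ℕ, L n.down) = (b ∈ ⋃ n : ULift.{u} ℕ, L n.down) from
      fun y hy => (this x y hy).mp (mem_iUnion.2 ⟨⟨0⟩, rfl⟩)
    intro a b h
    induction h with
    | rel a b hab =>
      have fwd : ∀ a b, AdjOff θ M a b → a ∈ (⋃ n : ULift.{u} ℕ, L n.down) →
          b ∈ ⋃ n : ULift.{u} ℕ, L n.down := by
        intro a b hab ha
        obtain ⟨n, hn⟩ := mem_iUnion.1 ha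
        refine mem_iUnion.2 ⟨⟨n.down + 1⟩, ?_⟩
        rw [hL]
        exact Or.inr (mem_iUnion.2 ⟨⟨a, hn⟩, hab⟩)
      exact propext ⟨fwd a b hab, fwd b a ⟨adj_symm hab.1, hab.2.2, hab.2.1⟩⟩
    | refl a => rfl
    | symm _ _ _ ih => exact ih.symm
    | trans _ _ _ _ _ i₁ i₂ => exact i₁.trans i₂
  refine (mk_le_mk_of_subset hsub).trans (mk_closure_le hθ L fun n => ?_)
  induction n with
  | zero => exact (mk_singleton x).trans_le (one_le_aleph0.trans hθ)
  | succ n ih =>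
    rw [hL]
    exact (mk_union_le _ _).trans (add_le_of_le hθ ih
      (mk_biUnion_le_of_le hθ _ _ ih fun a _ => hnb a))

variable (θ M) in
/-- The two components are isomorphic over the hubs. -/
def SameType (c c' : Set M.U) : Prop :=
  ∃ ψ : M.U → M.U, BijOn ψ c c' ∧ (∀ x ∈ hub θ M, ψ x = x) ∧
    ∀ s f, (∀ a, f a ∈ hub θ M ∪ c) → (M.rel s (fun a => ψ (f a)) ↔ M.rel s f)

theorem exists_code {W : Type u} (hW : #W = θ) (hθ : ℵ₀ ≤ θ) (hσ : #σ ≤ θ) (hM : FewHubs θ M) :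
    ∃ (T : Type u) (code : compSet θ M → T), #T ≤ 2 ^ θ ∧
      ∀ c c', code c = code c' → SameType θ M c.1 c'.1 := by
  classical
  have hj : ∀ c : compSet θ M, ∃ j : M.U → W, InjOn j c.1 := by
    intro c
    obtain ⟨e⟩ := (Cardinal.le_def _ _).1 ((mk_comp_le hθ c.2).trans hW.ge)
    have : Nonempty W := mk_ne_zero_iff.1 (by rw [hW]; exact (lt_of_lt_of_le aleph0_pos hθ).ne')
    refine ⟨fun x => if h : x ∈ c.1 then e ⟨x, h⟩ else Classical.arbitrary W,
      fun x hx y hy h => ?_⟩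
    simp only [dif_pos hx, dif_pos hy] at h
    exact congrArg Subtype.val (e.injective h)
  choose j hj using hj
  let enc : compSet θ M → M.U → hub θ M ⊕ W := fun c x =>
    if h : x ∈ hub θ M then Sum.inl ⟨x, h⟩ else Sum.inr (j c x)
  refine ⟨Set W × Set (σ × List (hub θ M ⊕ W)), fun c => (j c '' c.1,
    {q | ∃ f : Fin (ar q.1) → M.U, (∀ a, f a ∈ hub θ M ∪ c.1) ∧ M.rel q.1 f ∧
      List.ofFn (fun a => enc c (f a)) = q.2}), ?_, ?_⟩
  · have : Nonempty W := mk_ne_zero_iff.1 (by rw [hW]; exact (lt_of_lt_of_le aleph0_pos hθ).ne')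
    have : Infinite W := infinite_iff.2 (hθ.trans hW.ge)
    rw [mk_prod, lift_id, lift_id, mk_set, mk_set, hW]
    refine (mul_le_mul' le_rfl (power_le_power_left two_ne_zero ?_)).trans
      (mul_eq_self (hθ.trans (cantor _).le)).le
    rw [mk_prod, lift_id, lift_id, mk_list_eq_mk, mk_sum, lift_id, lift_id, hW]
    exact (mul_le_mul' hσ (add_le_of_le hθ hM le_rfl)).trans (mul_eq_self hθ).le
  · intro c c' h
    simp only [Prod.mk.injEq] at h
    obtain ⟨h1, h2⟩ := h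
    have hψ : ∀ x ∈ c.1, ∃ y ∈ c'.1, j c' y = j c x := fun x hx => by
      have := mem_image_of_mem (j c) hx
      rwa [h1] at this
    choose g hg1 hg2 using hψ
    let ψ : M.U → M.U := fun x => if hx : x ∈ c.1 then g x hx else x
    have hψc : ∀ x ∈ c.1, ψ x ∈ c'.1 ∧ j c' (ψ x) = j c x := fun x hx => by
      simp only [ψ, dif_pos hx]; exact ⟨hg1 x hx, hg2 x hx⟩
    have hψh : ∀ x ∈ hub θ M, ψ x = x := fun x hx =>
      dif_neg fun h => notMem_hub_of_mem c.2 h hx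
    have henc : ∀ x ∈ hub θ M ∪ c.1, ψ x ∈ hub θ M ∪ c'.1 ∧ enc c' (ψ x) = enc c x := by
      rintro x (hx | hx)
      · rw [hψh x hx]; exact ⟨Or.inl hx, by simp [enc, hx]⟩
      · obtain ⟨a, b⟩ := hψc x hx
        exact ⟨Or.inr a, by
          simp [enc, notMem_hub_of_mem c.2 hx, notMem_hub_of_mem c'.2 a, b]⟩
    have hinj : ∀ (d : compSet θ M), InjOn (enc d) (hub θ M ∪ d.1) := by
      intro d x hx y hy h
      by_cases hx' : x ∈ hub θ M <;> by_cases hy' : y ∈ hub θ M <;>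
        simp [enc, hx', hy'] at h
      · exact h
      · exact hj d ((or_iff_right hx').1 hx) ((or_iff_right hy').1 hy) h
    refine ⟨ψ, ⟨fun x hx => (hψc x hx).1, fun x hx y hy e => hj c hx hy ?_, fun y hy => ?_⟩,
      hψh, fun s f hf => ⟨fun hr => ?_, fun hr => ?_⟩⟩
    · rw [← (hψc x hx).2, ← (hψc y hy).2, e]
    · obtain ⟨x, hx, e⟩ : j c' y ∈ j c '' c.1 := h1 ▸ mem_image_of_mem _ hy
      exact ⟨x, hx, hj c' (hψc x hx).1 hy ((hψc x hx).2.trans e)⟩
    · have hq : (s, List.ofFn fun a => enc c' (ψ (f a))) ∈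
          ({q | ∃ f : Fin (ar q.1) → M.U, (∀ a, f a ∈ hub θ M ∪ c.1) ∧ M.rel q.1 f ∧
            List.ofFn (fun a => enc c (f a)) = q.2} : Set (σ × List (hub θ M ⊕ W))) := by
        rw [h2]
        exact ⟨fun a => ψ (f a), fun a => (henc _ (hf a)).1, hr, rfl⟩
      obtain ⟨g', hg', hgr, hge⟩ := hq
      have e : g' = f := funext fun a => hinj c (hg' a) (hf a)
        ((congrFun (List.ofFn_inj.1 hge) a).trans (henc _ (hf a)).2)
      rwa [← e]
    · have hq : (s, List.ofFn fun a => enc c (f a)) ∈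
          ({q | ∃ f : Fin (ar q.1) → M.U, (∀ a, f a ∈ hub θ M ∪ c'.1) ∧ M.rel q.1 f ∧
            List.ofFn (fun a => enc c' (f a)) = q.2} : Set (σ × List (hub θ M ⊕ W))) := by
        rw [← h2]
        exact ⟨f, hf, hr, rfl⟩
      obtain ⟨g', hg', hgr, hge⟩ := hq
      have e : g' = fun a => ψ (f a) := funext fun a => hinj c' (hg' a) (henc _ (hf a)).1
        ((congrFun (List.ofFn_inj.1 hge) a).trans (henc _ (hf a)).2.symm)
      rwa [← e]

/-- Components of one type form a twin family over any core around the hubs avoiding them. -/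
theorem exists_twins {c₀ : Set M.U} (hc₀ : c₀ ∈ compSet θ M) (F : Set (Set M.U))
    (hF : ∀ c ∈ F, c ∈ compSet θ M ∧ SameType θ M c₀ c) (C : Set M.U) (hC : hub θ M ⊆ C)
    (hd : ∀ c ∈ F, ∀ x ∈ c, x ∉ C) (hne : F.Nonempty) :
    ∃ T : Twins M, T.C = C ∧ Nonempty T.D ∧ T.pat.Conn ∧ #T.J = #F ∧ #T.D = #c₀ ∧
      range T.emb = ⋃₀ F := by
  classical
  choose ψ hψ hψh hψr using fun c : F => (hF c.1 c.2).2
  let T : Twins M :=
    { C := C
      J := F
      D := c₀
      emb := fun p => ψ p.1 p.2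
      inj := by
        rintro ⟨c, x⟩ ⟨c', y⟩ h
        obtain rfl : c = c' := Subtype.ext (comp_unique (hF _ c.2).1 (hF _ c'.2).1
          ((hψ c).mapsTo x.2) ((show ψ c x = ψ c' y from h) ▸ (hψ c').mapsTo y.2))
        exact congrArg (Prod.mk c) (Subtype.ext ((hψ c).injOn x.2 y.2 h))
      disj := fun p => hd _ p.1.2 _ ((hψ p.1).mapsTo p.2.2)
      loc := by
        rintro s f h ⟨a, ⟨c, x⟩, ha⟩
        refine ⟨c, fun b => ?_⟩
        rcases tuple_mem (hF _ c.2).1 h (a := a) (ha ▸ (hψ c).mapsTo x.2) b with hb | hb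
        · exact Or.inl (hC hb)
        · obtain ⟨y, hy, e⟩ := (hψ c).surjOn hb
          exact Or.inr ⟨⟨y, hy⟩, e.symm⟩
      indisc := by
        intro s c c' g h
        by_cases ht : ∃ a d, g a = Sum.inr d
        · obtain ⟨a, d, ha⟩ := ht
          have hmem : ∀ b z, g b = Sum.inl z → (z : M.U) ∈ hub θ M := by
            intro b z hb
            have := tuple_mem (hF _ c.2).1 h (a := a) (by
              simp only [ha, Sum.elim_inr]; exact (hψ c).mapsTo d.2) b
            simp only [hb, Sum.elim_inl] at this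
            exact this.resolve_right fun hz => hd _ c.2 _ hz z.2
          let f₀ : Fin (ar s) → M.U := fun b => Sum.elim (fun z : C => (z : M.U))
            (fun d : c₀ => (d : M.U)) (g b)
          have hf₀ : ∀ b, f₀ b ∈ hub θ M ∪ c₀ := fun b => by
            rcases hb : g b with z | d
            · exact Or.inl (by simp [f₀, hb, hmem b z hb])
            · exact Or.inr (by simp [f₀, hb])
          have e : ∀ c : F, (fun b => ψ c (f₀ b)) = fun b =>
              Sum.elim (fun z : C => (z : M.U)) (fun d : c₀ => ψ c d) (g b) := fun c => funext fun b => by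
            rcases hb : g b with z | d
            · simp [f₀, hb, hψh c _ (hmem b z hb)]
            · simp [f₀, hb]
          rw [← e, hψr c' s f₀ hf₀]
          rw [← e, hψr c s f₀ hf₀] at h
          exact h
        · push Not at ht
          convert h using 1
          funext b
          rcases hb : g b with z | d
          · rfl
          · exact absurd hb (ht b d) }
  refine ⟨T, rfl, ?_, ?_, rfl, rfl, ?_⟩
  · obtain ⟨x, -, rfl⟩ := hc₀
    exact ⟨⟨x, Relation.EqvGen.refl x⟩⟩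
  · intro d e
    obtain ⟨c⟩ : Nonempty F := hne.to_subtype
    obtain ⟨x, hx, rfl⟩ := hc₀
    suffices ∀ a b, Relation.EqvGen (AdjOff θ M) a b → ∀ (ha : a ∈ comp θ M x)
        (hb : b ∈ comp θ M x), Relation.EqvGen T.pat.BlockAdj ⟨a, ha⟩ ⟨b, hb⟩ from
      this _ _ ((show Relation.EqvGen (AdjOff θ M) x d.1 from d.2).symm.trans _ _ _ e.2) d.2 e.2
    intro a b h
    induction h with
    | rel a b hab =>
      intro ha hb
      obtain ⟨⟨s, f, hf, ⟨i, hi⟩, j, hj⟩, -, -⟩ := hab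
      have hc₀ : comp θ M x ∈ compSet θ M := ⟨x, hx, rfl⟩
      have hfm : ∀ k, f k ∈ hub θ M ∪ comp θ M x := tuple_mem hc₀ hf (hi.symm ▸ ha)
      let g : Fin (ar s) → C ⊕ comp θ M x := fun k =>
        if h : f k ∈ comp θ M x then Sum.inr ⟨f k, h⟩ else
          Sum.inl ⟨f k, hC ((or_iff_left h).1 (hfm k))⟩
      refine .rel _ _ ⟨s, g, ⟨c, ?_⟩, ⟨i, ?_⟩, j, ?_⟩
      · convert (hψr c s f hfm).2 hf using 1
        funext k
        by_cases h : f k ∈ comp θ M x
        · simp [g, h, T]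
        · simp [g, h, hψh c _ ((or_iff_left h).1 (hfm k))]
      · simp [g, hi, ha]
      · simp [g, hj, hb]
    | refl a => exact fun _ _ => .refl _
    | symm _ _ _ ih => exact fun ha hb => (ih hb ha).symm
    | trans a b c' hab _ i₁ i₂ =>
      intro ha hc'
      have hb : b ∈ comp θ M x := Relation.EqvGen.trans _ _ _ ha hab
      exact (i₁ ha hb).trans _ _ _ (i₂ hb hc')
  · ext y
    constructor
    · rintro ⟨⟨c, x⟩, rfl⟩
      exact ⟨c.1, c.2, (hψ c).mapsTo x.2⟩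
    · rintro ⟨c, hc, hy⟩
      obtain ⟨x, hx, rfl⟩ := (hψ ⟨c, hc⟩).surjOn hy
      exact ⟨(⟨c, hc⟩, ⟨x, hx⟩), rfl⟩

end Components

end Vale.Agent.P307
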