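import Mathlib
import Vale.Agent.P307.Components

/-!
Categoricity transfer for locally bounded abstract elementary classes.
-/

namespace Vale.Agent.P307

open Cardinal Set

universe u

variable {σ : Type u} {ar : σ → ℕ} {W : Type u}

theorem mk_pre_le (hW : ℵ₀ ≤ #W) (hσ : #σ ≤ #W) : #(Pre σ ar W) ≤ 2 ^ #W := by
  refine (mk_le_of_injective (f := fun p : Pre σ ar W =>
    ((p.1, fun q => ∃ f : Fin (ar q.1) → p.1, p.2 q.1 f ∧ List.ofFn (fun a => (f a : W)) = q.2) :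
      Set W × (σ × List W → Prop))) ?_).trans ?_
  · rintro ⟨D, r⟩ ⟨D', r'⟩ h
    simp only [Prod.mk.injEq] at h
    obtain ⟨rfl, h2⟩ := h
    congr 1
    funext s f
    have := congrFun h2 (s, List.ofFn fun a => (f a : W))
    simp only [List.ofFn_inj, eq_iff_iff] at this
    refine propext ⟨fun hf => ?_, fun hf => ?_⟩
    · obtain ⟨g, hg, e⟩ := this.1 ⟨f, hf, rfl⟩
      rwa [← funext fun a => Subtype.ext (congrFun e a)]
    · obtain ⟨g, hg, e⟩ := this.2 ⟨f, hf, rfl⟩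
      rwa [← funext fun a => Subtype.ext (congrFun e a)]
  · rw [mk_prod, lift_id, lift_id, mk_set, mk_arrow, lift_uzero, mk_Prop, lift_ofNat, mk_prod,
      lift_id, lift_id]
    refine (mul_le_mul' le_rfl (power_le_power_left two_ne_zero ?_)).trans
      (mul_eq_self (hW.trans (cantor _).le)).le
    have : Nonempty W := mk_ne_zero_iff.1 (lt_of_lt_of_le aleph0_pos hW).ne'
    have : Infinite W := infinite_iff.2 hW
    rw [mk_list_eq_mk]
    exact (mul_le_mul' hσ le_rfl).trans (mul_eq_self hW).le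

theorem mk_col_le (hW : ℵ₀ ≤ #W) (hσ : #σ ≤ #W) : #(Col σ ar W) ≤ 2 ^ #W :=
  (mk_subtype_le _).trans ((mk_quotient_le (s := preSetoid σ ar W)).trans (mk_pre_le hW hσ))

theorem mk_eq_sum_fib {I T : Type u} (τ : I → T) : #I = Cardinal.sum fun t => fib τ t Set.univ := by
  rw [← mk_congr (Equiv.sigmaFiberEquiv τ), mk_sigma]
  refine congrArg _ (funext fun t => mk_congr ?_)
  exact Equiv.subtypeEquivRight fun i => ⟨fun h => ⟨trivial, h⟩, fun h => h.2⟩

theorem fib_fst {T : Type u} (C : T → Type u) (t : T) :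
    fib (Sigma.fst : (Σ t, C t) → T) t Set.univ = #(C t) :=
  mk_congr ((Equiv.subtypeEquivRight fun _ => ⟨fun h => h.2, fun h => ⟨trivial, h⟩⟩).trans
    (Equiv.sigmaSubtype t))

theorem mk_sum_eq {I : Type u} {z : σ → Prop} (τ : I → Col σ ar W) {L : Cardinal.{u}}
    (hL : ℵ₀ ≤ L) (hW : #W ≤ L) (h : L < #(sumStr z τ).U ∨ L < #I) :
    #(sumStr z τ).U = #I := by
  have h1 : #I ≤ #(sumStr z τ).U := by
    refine mk_le_of_injective (f := fun i => (⟨i, (τ i).2.1.some⟩ : (sumStr z τ).U)) ?_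
    exact fun i j e => congrArg Sigma.fst e
  have h2 : #(sumStr z τ).U ≤ #I * #W := by
    refine (mk_le_of_injective (f := fun x : (sumStr z τ).U => (x.1, (Subtype.val x.2 : W))) ?_).trans
      (le_of_eq (by simp))
    rintro ⟨i, v⟩ ⟨j, w⟩ e
    simp only [Prod.mk.injEq] at e
    obtain ⟨rfl, e2⟩ := e
    obtain rfl := Subtype.ext e2
    rfl
  have hI : L < #I := by
    by_contra! hI
    rcases h with h | h
    · exact absurd h (not_lt.2 (h2.trans ((mul_le_mul' hI hW).trans (mul_eq_self hL).le)))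
    · exact absurd h (not_lt.2 hI)
  refine le_antisymm (h2.trans ((mul_le_mul' le_rfl (hW.trans hI.le)).trans
    (mul_eq_self (hL.trans hI.le)).le)) h1

/-- All colours keep their size except the ones in `B`, which get size `f t`. -/
theorem exists_colouring {T : Type u} (c : T → Cardinal.{u}) :
    ∃ (I : Type u) (τ : I → T), ∀ t, fib τ t Set.univ = c t :=
  ⟨Σ t, (c t).out, Sigma.fst, fun t => (fib_fst _ t).trans (mk_out _)⟩

theorem exists_model {l : Cardinal.{u}} (K : AEC σ ar l) (hl : ℵ₀ ≤ #W) (hσ : #σ ≤ #W)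
    (hlW : l ≤ #W) {I : Type u} (τ : I → Col σ ar W) {z : σ → Prop}
    (hm : K.mem (sumStr z τ)) (c : Col σ ar W → Cardinal.{u})
    (hc₁ : ∀ t, fib τ t Set.univ ≤ 2 ^ #W → c t = fib τ t Set.univ)
    (hc₂ : ∀ t, 2 ^ #W < fib τ t Set.univ → 2 ^ #W ≤ c t) :
    ∃ (I' : Type u) (τ' : I' → Col σ ar W),
      (∀ t, fib τ' t Set.univ = c t) ∧ K.mem (sumStr z τ') := by
  have hL : ℵ₀ ≤ 2 ^ #W := hl.trans (cantor _).le
  obtain ⟨I', τ', hτ'⟩ := exists_colouring c
  have hall : ∀ {J : Type u} (ρ : J → Col σ ar W),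
      K.MemOn (sumStr z ρ) (comps ρ Set.univ) ↔ K.mem (sumStr z ρ) := fun ρ =>
    ⟨fun h => K.mem_iso _ _ (Equiv.Set.univ _) (fun _ _ => Iff.rfl) h,
      fun h => K.mem_iso _ _ (Equiv.Set.univ _).symm (fun _ _ => Iff.rfl) h⟩
  refine ⟨I', τ', hτ', (hall τ').1 ?_⟩
  refine ColClass.stretch (colClass K z (hlW.trans (cantor _).le) (cantor _).le hL) τ τ' hL
    (mk_col_le hl hσ) ((hall τ).2 hm) (fun t ht => (hτ' t).trans (hc₁ t ht))
    (fun t ht => (hτ' t).symm ▸ hc₂ t ht)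

/-- Categoricity in one cardinal above `2 ^ l` gives categoricity in all of them. -/
theorem categorical_transfer {l : Cardinal.{u}} (K : AEC σ ar l) (hl : ℵ₀ ≤ l) (hσ : #σ ≤ l)
    (hloc : ∀ M, K.mem M → ∀ x, #({y | Adj M x y} : Set M.U) ≤ l) {κ κ' : Cardinal.{u}}
    (hκ : 2 ^ l < κ) (hκ' : 2 ^ l < κ') (hcat : K.Categorical κ) : K.Categorical κ' := by
  classical
  obtain ⟨W, rfl⟩ : ∃ W : Type u, l = #W := ⟨l.out, (mk_out l).symm⟩
  have hL : ℵ₀ ≤ (2 : Cardinal.{u}) ^ #W := hl.trans (cantor _).le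
  have hT : #(Col σ ar W) ≤ 2 ^ #W := mk_col_le hl hσ
  have hWL : #W ≤ 2 ^ #W := (cantor _).le
  obtain ⟨⟨M, hM, hMc⟩, huniq⟩ := hcat
  obtain ⟨I₀, τ₀, z₀, e₀, he₀⟩ := exists_decomposition hl M (hloc M hM)
  have hS₀ : K.mem (sumStr z₀ τ₀) := K.mem_iso _ _ e₀ he₀ hM
  have hSc₀ : #(sumStr z₀ τ₀).U = κ := (mk_congr e₀).symm.trans hMc
  have hI₀ : #I₀ = κ := (mk_sum_eq τ₀ hL hWL (Or.inl (hSc₀ ▸ hκ))).symm.trans hSc₀
  have hbig : ∀ {I : Type u} (τ : I → Col σ ar W), 2 ^ #W < #I →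
      ∃ t, 2 ^ #W < fib τ t Set.univ := by
    intro I τ hI
    by_contra! h
    rw [mk_eq_sum_fib τ] at hI
    refine absurd hI (not_lt.2 ((sum_le_mk_mul_iSup _).trans ?_))
    exact (mul_le_mul' hT (ciSup_le' h)).trans (mul_eq_self hL).le
  have hsum : ∀ {I : Type u} (τ : I → Col σ ar W) (θ : Cardinal.{u}), 2 ^ #W ≤ θ →
      (∀ t, fib τ t Set.univ ≤ θ) → (∃ t, fib τ t Set.univ = θ) → #I = θ := by
    intro I τ θ hθ hle ⟨t, ht⟩
    refine le_antisymm ?_ (ht ▸ ((fib_le τ t _).trans mk_univ.le))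
    rw [mk_eq_sum_fib τ]
    exact ((sum_le_mk_mul_iSup _).trans (mul_le_mul' (hT.trans hθ) (ciSup_le' hle))).trans
      (mul_eq_self (hL.trans hθ)).le
  have hinv : ∀ {I I' : Type u} (τ : I → Col σ ar W) (τ' : I' → Col σ ar W) (z z' : σ → Prop),
      K.mem (sumStr z τ) → K.mem (sumStr z' τ') → #(sumStr z τ).U = κ →
      #(sumStr z' τ').U = κ →
      (∀ s, ar s = 0 → (z s ↔ z' s)) ∧ ∀ t, fib τ' t Set.univ = fib τ t Set.univ := by
    intro I I' τ τ' z z' h h' hc hc'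
    obtain ⟨E, hE⟩ := huniq _ _ h h' hc hc'
    obtain ⟨hz, e, he⟩ := iso_invariants E hE
    refine ⟨hz, fun t => (mk_congr ((e.subtypeEquiv fun i => ?_))).symm⟩
    change _ ∧ _ ↔ _ ∧ _
    simp [he]
  have hsize : ∀ {I : Type u} {z : σ → Prop} (τ : I → Col σ ar W), #I = κ →
      #(sumStr z τ).U = κ := fun τ h => (mk_sum_eq τ hL hWL (Or.inr (h ▸ hκ))).trans h
  obtain ⟨t₀, ht₀⟩ := hbig τ₀ (hI₀ ▸ hκ)
  have hone : ∀ t, 2 ^ #W < fib τ₀ t Set.univ → t = t₀ := by
    intro t ht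
    by_contra hne
    let c : Col σ ar W → Cardinal.{u} := fun s =>
      if 2 ^ #W < fib τ₀ s Set.univ then (if s = t then 2 ^ #W else κ) else fib τ₀ s Set.univ
    obtain ⟨I, τ, hτ, hmem⟩ := exists_model K hl hσ le_rfl τ₀ hS₀ c
      (fun s hs => if_neg (not_lt.2 hs)) fun s hs => by
        simp only [c, if_pos hs]
        split
        · exact le_rfl
        · exact hκ.le
    have hIc : #I = κ := hsum τ κ hκ.le (fun s => by
        rw [hτ s]
        simp only [c]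
        split
        · split
          · exact hκ.le
          · exact le_rfl
        · exact (not_lt.1 ‹_›).trans hκ.le)
      ⟨t₀, by rw [hτ t₀]; simp only [c, if_pos ht₀, if_neg (Ne.symm hne)]⟩
    have h := (hinv τ₀ τ z₀ z₀ hS₀ hmem hSc₀ (hsize τ hIc)).2 t
    rw [hτ t] at h
    simp only [c, if_pos ht, if_true] at h
    exact ht.ne h
  have hdet : ∀ N, K.mem N → #N.U = κ' → ∃ (I : Type u) (τ : I → Col σ ar W),
      (∀ t, fib τ t Set.univ = if t = t₀ then κ' else fib τ₀ t Set.univ) ∧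
        ∃ e, IsIso N (sumStr z₀ τ) e := by
    intro N hN hNc
    obtain ⟨I, τ, z, e, he⟩ := exists_decomposition hl N (hloc N hN)
    have hS : K.mem (sumStr z τ) := K.mem_iso _ _ e he hN
    have hI : #I = κ' := by
      have h1 : #(sumStr z τ).U = κ' := (mk_congr e).symm.trans hNc
      exact (mk_sum_eq τ hL hWL (Or.inl (h1 ▸ hκ'))).symm.trans h1
    let c : Col σ ar W → Cardinal.{u} := fun s =>
      if 2 ^ #W < fib τ s Set.univ then κ else fib τ s Set.univ
    obtain ⟨J, ρ, hρ, hmem⟩ := exists_model K hl hσ le_rfl τ hS c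
      (fun s hs => if_neg (not_lt.2 hs)) fun s hs => by simp only [c, if_pos hs]; exact hκ.le
    obtain ⟨t₁, ht₁⟩ := hbig τ (hI ▸ hκ')
    have hJ : #J = κ := hsum ρ κ hκ.le (fun s => by
        rw [hρ s]
        simp only [c]
        split
        · exact le_rfl
        · exact (not_lt.1 ‹_›).trans hκ.le) ⟨t₁, by rw [hρ t₁]; exact if_pos ht₁⟩
    obtain ⟨hz, hfib⟩ := hinv τ₀ ρ z₀ z hS₀ hmem hSc₀ (hsize ρ hJ)
    have hiff : ∀ s, 2 ^ #W < fib τ s Set.univ ↔ s = t₀ := by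
      intro s
      refine ⟨fun hs => hone s ?_, fun hs => ?_⟩
      · rw [← hfib s, hρ s, show c s = κ from if_pos hs]; exact hκ
      · by_contra h
        have := hfib s
        rw [hρ s, show c s = fib τ s Set.univ from if_neg h, hs] at this
        exact h (hs ▸ this ▸ ht₀)
    refine ⟨I, τ, fun t => ?_, e, fun s f => ?_⟩
    · by_cases ht : t = t₀
      · subst ht
        rw [if_pos rfl]
        refine le_antisymm (((fib_le τ t _).trans mk_univ.le).trans hI.le) ?_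
        by_contra! hlt
        obtain ⟨θ, hθ⟩ : ∃ θ, θ = fib τ t Set.univ := ⟨_, rfl⟩
        have hθL : 2 ^ #W < θ := hθ ▸ (hiff t).2 rfl
        have := hsum τ θ hθL.le (fun s => by
          by_cases hs : s = t
          · rw [hs, hθ]
          · exact (not_lt.1 (mt (hiff s).1 hs)).trans hθL.le) ⟨t, hθ.symm⟩
        exact hlt.ne (hθ ▸ this ▸ hI)
      · rw [if_neg ht, ← hfib t, hρ t]
        exact (if_neg (mt (hiff t).1 ht)).symm
    · rcases eq_or_ne (ar s) 0 with hs | hs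
      · rw [rel_zero τ hs, hz s hs, ← rel_zero (z := z) τ hs]
        exact he s f
      · refine Iff.trans ?_ (he s f)
        exact or_congr (iff_of_false (fun h => hs h.1) (fun h => hs h.1)) Iff.rfl
  obtain ⟨I', τ', hτ', hmem'⟩ := exists_model K hl hσ le_rfl τ₀ hS₀
    (fun t => if t = t₀ then κ' else fib τ₀ t Set.univ)
    (fun t ht => if_neg fun h => absurd (h ▸ ht) (not_le.2 ht₀))
    (fun t ht => by simp only [if_pos (hone t ht)]; exact hκ'.le)
  refine ⟨⟨_, hmem', ?_⟩, fun A B hA hB hAc hBc => ?_⟩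
  · have hI' : #I' = κ' := hsum τ' κ' hκ'.le (fun t => by
        rw [hτ' t]
        split
        · exact le_rfl
        · exact (not_lt.1 (mt (hone t) ‹_›)).trans hκ'.le) ⟨t₀, by rw [hτ' t₀, if_pos rfl]⟩
    exact (mk_sum_eq τ' hL hWL (Or.inr (hI' ▸ hκ'))).trans hI'
  · obtain ⟨IA, τA, hfA, eA, heA⟩ := hdet A hA hAc
    obtain ⟨IB, τB, hfB, eB, heB⟩ := hdet B hB hBc
    obtain ⟨e, he⟩ := exists_equiv_of_fib_eq τA τB Set.univ Set.univ
      fun t => (hfA t).trans (hfB t).symm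
    obtain ⟨E, hE, -⟩ := exists_iso_sum (z := z₀) τA τB
      ((Equiv.Set.univ IA).symm.trans (e.trans (Equiv.Set.univ IB))) fun i => he ⟨i, trivial⟩
    exact ⟨eA.trans (E.trans eB.symm), heA.trans (hE.trans heB.symm)⟩

end Vale.Agent.P307
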