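import Mathlib
import Vale.Agent.P307.Hubs

/-!
Upward categoricity transfer from a categorical model with few hubs.
-/

namespace Vale.Agent.P307

open Cardinal Set

universe u

variable {σ : Type u} {ar : σ → ℕ}

theorem adj_of_restr {N : Str σ ar} {A : Set N.U} {x y : A} (h : Adj (N.restr A) x y) :
    Adj N x y := by
  obtain ⟨s, f, hf, ⟨i, hi⟩, j, hj⟩ := h
  exact ⟨s, fun k => (f k).1, hf, ⟨i, congrArg Subtype.val hi⟩, j, congrArg Subtype.val hj⟩

theorem mk_str {P : Pat σ ar} {L : Cardinal.{u}} (hL : ℵ₀ ≤ L) (hC : #P.Cc ≤ L) (hD : #P.D ≤ L)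
    [Nonempty P.D] {I : Type u} (hI : L ≤ #I) : #(P.str I).U = #I := by
  have hinf := hL.trans hI
  refine le_antisymm ?_ ?_
  · simp only [mk_sum, mk_prod, lift_id]
    exact add_le_of_le hinf (hC.trans hI)
      ((mul_le_mul' le_rfl (hD.trans hI)).trans (mul_eq_self hinf).le)
  · exact mk_le_of_injective (f := fun i => (Sum.inr (i, Classical.arbitrary P.D) : (P.str I).U))
      fun i j h => congrArg Prod.fst (Sum.inr.inj h)

theorem mk_le_compSet {N : Str σ ar} {θ κ : Cardinal.{u}} (hθ : ℵ₀ ≤ θ) (hN : FewHubs θ N)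
    (hθκ : θ < κ) (hκ : κ ≤ #N.U) : κ ≤ #(compSet θ N) := by
  by_contra! h
  obtain ⟨m, hm⟩ : ∃ m, m = max θ #(compSet θ N) := ⟨_, rfl⟩
  have hmκ : m < κ := hm ▸ max_lt hθκ h
  have hm0 : ℵ₀ ≤ m := hm ▸ hθ.trans (le_max_left _ _)
  have hθm : θ ≤ m := hm ▸ le_max_left _ _
  have hcover : (Set.univ : Set N.U) ⊆ hub θ N ∪ ⋃ c : compSet θ N, (c : Set N.U) := fun x _ => by
    by_cases hx : x ∈ hub θ N
    · exact Or.inl hx
    · exact Or.inr (mem_iUnion.2 ⟨⟨_, x, hx, rfl⟩, Relation.EqvGen.refl x⟩)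
  refine absurd hκ (not_le.2 (lt_of_le_of_lt ?_ hmκ))
  rw [← mk_univ]
  refine (mk_le_mk_of_subset hcover).trans ((mk_union_le _ _).trans
    (add_le_of_le hm0 (hN.trans hθm) ?_))
  exact mk_biUnion_le_of_le hm0 _ id (hm ▸ le_max_right _ _)
    fun c hc => (mk_comp_le hθ hc).trans hθm

theorem exists_big_type {N : Str σ ar} {θ : Cardinal.{u}} (hθ : ℵ₀ ≤ θ) (hσ : #σ ≤ θ)
    (hN : FewHubs θ N) (G : Set (Set N.U)) (hG : G ⊆ compSet θ N) (hbig : 2 ^ θ < #G) :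
    ∃ c₀ ∈ G, ∃ X ⊆ G, 2 ^ θ < #X ∧ ∀ c ∈ X, SameType θ N c₀ c := by
  obtain ⟨T, code, hT, hcode⟩ := exists_code (W := θ.out) (mk_out θ) hθ hσ hN
  let cl : T → Set G := fun t => {c | code ⟨c.1, hG c.2⟩ = t}
  by_cases h : ∃ t, 2 ^ θ < #(cl t)
  · obtain ⟨t, ht⟩ := h
    obtain ⟨⟨c₀, hc₀⟩⟩ : Nonempty (cl t) := mk_ne_zero_iff.1 (lt_of_le_of_lt (zero_le) ht).ne'
    refine ⟨c₀.1, c₀.2, Subtype.val '' cl t, fun c ⟨d, _, e⟩ => e ▸ d.2, ?_, ?_⟩
    · rwa [mk_image_eq Subtype.val_injective]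
    · rintro _ ⟨d, hd, rfl⟩
      exact hcode ⟨c₀.1, hG c₀.2⟩ ⟨d.1, hG d.2⟩ (hc₀.trans hd.symm)
  · push Not at h
    refine absurd hbig (not_lt.2 ?_)
    have hL : ℵ₀ ≤ (2 : Cardinal.{u}) ^ θ := hθ.trans (cantor _).le
    calc #G = #(⋃ t, cl t) := by
          rw [show (⋃ t, cl t) = Set.univ from eq_univ_of_forall fun c => mem_iUnion.2 ⟨_, rfl⟩,
            mk_univ]
      _ ≤ #T * ⨆ t, #(cl t) := mk_iUnion_le _
      _ ≤ 2 ^ θ * 2 ^ θ := mul_le_mul' hT (ciSup_le' h)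
      _ = 2 ^ θ := mul_eq_self hL

theorem fewHubs_of_large {θ κ : Cardinal.{u}} (hθ : ℵ₀ ≤ θ) (K : AEC σ ar θ)
    (hκ : Order.succ θ ≤ κ) {M : Str σ ar} (hM : FewHubs θ M)
    (huniq : ∀ N, K.mem N → #N.U = κ → ∃ e, IsIso M N e)
    {N : Str σ ar} (hN : K.mem N) (hNc : κ ≤ #N.U) : FewHubs θ N := by
  by_contra hbad
  have hinf : ℵ₀ ≤ κ := hθ.trans ((Order.le_succ θ).trans hκ)
  obtain ⟨S, hS, hSc⟩ := le_mk_iff_exists_subset.1 (Order.succ_le_of_lt (not_le.1 hbad))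
  obtain ⟨seed, hseed⟩ := le_mk_iff_exists_set.1 hNc
  have hY : ∀ x : S, ∃ Y ⊆ {y | Adj N (x : N.U) y}, #Y = Order.succ θ := fun x =>
    le_mk_iff_exists_subset.1 (Order.succ_le_of_lt (hS x.2))
  choose Y hY hYc using hY
  have hadj : ∀ p : Σ x : S, Y x, Adj N (p.1 : N.U) (p.2 : N.U) := fun p => hY p.1 p.2.2
  choose s f hf hi hj using hadj
  let A : Set N.U := (⋃ p : Σ x : S, Y x, range (f p)) ∪ seed
  have hsucc : ℵ₀ ≤ Order.succ θ := hθ.trans (Order.le_succ θ)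
  have hA : #A ≤ κ := by
    refine (mk_union_le _ _).trans (add_le_of_le hinf ?_ hseed.le)
    have hp : #(Σ x : S, Y x) ≤ κ := by
      rw [mk_sigma]
      refine (sum_le_mk_mul_iSup _).trans ?_
      refine (mul_le_mul' hSc.le (ciSup_le' fun x => (hYc x).le)).trans ?_
      rw [mul_eq_self hsucc]
      exact hκ
    calc #(⋃ p : Σ x : S, Y x, range (f p))
        ≤ #(Σ x : S, Y x) * ⨆ p : Σ x : S, Y x, #(range (f p)) :=
          mk_iUnion_le (fun p => range (f p))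
      _ ≤ κ * κ := mul_le_mul' hp (ciSup_le' fun p =>
          (Set.finite_range (f p)).lt_aleph0.le.trans hinf)
      _ = κ := mul_eq_self hinf
  obtain ⟨B, hAB, hB, hBc⟩ := K.ls N A hN
  have hBκ : #B = κ := le_antisymm
    (hBc.trans (add_le_of_le hinf hA ((Order.le_succ θ).trans hκ)))
    (hseed ▸ mk_le_mk_of_subset (subset_union_right.trans hAB))
  obtain ⟨e, he⟩ := huniq _ (K.strong_mem _ _ hB).2 hBκ
  have hfB : ∀ p a, f p a ∈ B := fun p a => hAB (Or.inl (mem_iUnion.2 ⟨p, a, rfl⟩))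
  have hSB : ∀ x : S, (x : N.U) ∈ B := fun x => by
    obtain ⟨⟨y, hy⟩⟩ : Nonempty (Y x) := mk_ne_zero_iff.1 (by
      rw [hYc]; exact (lt_of_lt_of_le aleph0_pos hsucc).ne')
    obtain ⟨a, ha⟩ := hi ⟨x, y, hy⟩
    exact ha ▸ hfB _ a
  have h1 : ∀ x : S, θ < #({y | Adj (N.restr B) ⟨x, hSB x⟩ y} : Set (N.restr B).U) := by
    intro x
    refine lt_of_lt_of_le (Order.lt_succ θ) (hYc x ▸ ?_)
    refine mk_le_of_injective (f := fun y : Y x =>
      (⟨⟨y.1, (hj ⟨x, y⟩).choose_spec ▸ hfB _ _⟩,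
        ⟨s ⟨x, y⟩, fun a => ⟨f ⟨x, y⟩ a, hfB _ a⟩, hf _,
          ⟨(hi ⟨x, y⟩).choose, Subtype.ext (hi ⟨x, y⟩).choose_spec⟩,
          ⟨(hj ⟨x, y⟩).choose, Subtype.ext (hj ⟨x, y⟩).choose_spec⟩⟩⟩ :
        ({y | Adj (N.restr B) ⟨x, hSB x⟩ y} : Set (N.restr B).U))) ?_
    intro y y' h
    exact Subtype.ext (congrArg (fun z => (z.1 : N.U)) h)
  have h2 : Order.succ θ ≤ #(hub θ (N.restr B)) := hSc ▸
    mk_le_of_injective (f := fun x : S => (⟨⟨x, hSB x⟩, h1 x⟩ : hub θ (N.restr B)))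
      (fun x y h => Subtype.ext (congrArg (fun z => (z.1 : N.U)) h))
  exact absurd (fewHubs_iso e he hM) (not_le.2 ((Order.lt_succ θ).trans_le h2))

/-- Two components that avoid the base of a replication are of one type. -/
theorem sameType_of_iso {N : Str σ ar} {θ : Cardinal.{u}} {A : Set N.U} {P : Pat σ ar}
    (hconn : P.Conn) {I : Type u} (F : (N.restr A).U ≃ (P.str I).U)
    (hF : IsIso (N.restr A) (P.str I) F) (hH : hub θ N ⊆ A) {J₀ : Set I}
    (hJ₀ : ∀ x : A, (x : N.U) ∈ hub θ N → F x ∈ P.part J₀)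
    {c c' : Set N.U} (hc : c ∈ compSet θ N) (hc' : c' ∈ compSet θ N) (hcA : c ⊆ A) (hc'A : c' ⊆ A)
    (hav : ∀ x : A, (x : N.U) ∈ c → F x ∉ P.part J₀)
    (hav' : ∀ x : A, (x : N.U) ∈ c' → F x ∉ P.part J₀) : SameType θ N c c' := by
  classical
  have copy : ∀ c ∈ compSet θ N, c ⊆ A → (∀ x : A, (x : N.U) ∈ c → F x ∉ P.part J₀) →
      ∃ i ∉ J₀, ∀ x : A, (x : N.U) ∈ c ↔ ∃ d, F x = Sum.inr (i, d) := by
    intro c hc hcA hav
    obtain ⟨x₀, hx₀, rfl⟩ := id hc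
    have hx₀c : x₀ ∈ comp θ N x₀ := Relation.EqvGen.refl _
    rcases hFx : F ⟨x₀, hcA hx₀c⟩ with a | ⟨i, d₀⟩
    · have h := hav ⟨x₀, hcA hx₀c⟩ hx₀c
      rw [hFx] at h
      exact absurd trivial h
    have hi : i ∉ J₀ := by
      have h := hav ⟨x₀, hcA hx₀c⟩ hx₀c
      rwa [hFx] at h
    have fwd : ∀ y, Relation.EqvGen (AdjOff θ N) x₀ y →
        ∃ h : y ∈ A, ∃ d, F ⟨y, h⟩ = Sum.inr (i, d) := by
      suffices ∀ a b, Relation.EqvGen (AdjOff θ N) a b → a ∈ comp θ N x₀ →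
          ((∃ h : a ∈ A, ∃ d, F ⟨a, h⟩ = Sum.inr (i, d)) ↔
            ∃ h : b ∈ A, ∃ d, F ⟨b, h⟩ = Sum.inr (i, d)) from
        fun y hy => (this x₀ y hy hx₀c).1 ⟨_, d₀, hFx⟩
      intro a b h
      induction h with
      | rel a b hab =>
        intro ha
        obtain ⟨⟨s, f, hf, ⟨p, hp⟩, q, hq⟩, -, -⟩ := id hab
        have hb : b ∈ comp θ N x₀ := Relation.EqvGen.trans _ _ _ ha (.rel _ _ hab)
        have hfA : ∀ k, f k ∈ A := fun k =>
          (tuple_mem hc hf (hp.symm ▸ ha) k).elim (fun h => hH h) (fun h => hcA h)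
        obtain ⟨j, g, -, hg⟩ : (P.str I).rel s fun k => F ⟨f k, hfA k⟩ := (hF s _).2 hf
        have key : ∀ k z (hz : z ∈ comp θ N x₀), f k = z →
            ∃ d, F ⟨z, hcA hz⟩ = Sum.inr (j, d) := by
          rintro k z hz rfl
          have h1 : F ⟨f k, hfA k⟩ = P.lift j (g k) := hg k
          rcases hgk : g k with a | d
          · rw [hgk] at h1
            have h2 := hav ⟨f k, hfA k⟩ hz
            rw [h1] at h2
            exact absurd trivial h2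
          · rw [hgk] at h1
            exact ⟨d, h1⟩
        obtain ⟨da, hda⟩ := key p a ha hp
        obtain ⟨db, hdb⟩ := key q b hb hq
        constructor <;> rintro ⟨h, d, hd⟩
        · obtain rfl : j = i := congrArg Prod.fst (Sum.inr.inj (hda.symm.trans hd))
          exact ⟨hcA hb, db, hdb⟩
        · obtain rfl : j = i := congrArg Prod.fst (Sum.inr.inj (hdb.symm.trans hd))
          exact ⟨hcA ha, da, hda⟩
      | refl a => exact fun _ => Iff.rfl
      | symm a b hab ih =>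
        intro hb
        exact (ih (Relation.EqvGen.trans _ _ _ hb hab.symm)).symm
      | trans a b d hab _ i₁ i₂ =>
        intro ha
        exact (i₁ ha).trans (i₂ (Relation.EqvGen.trans _ _ _ ha hab))
    refine ⟨i, hi, fun x => ⟨fun hx => ?_, ?_⟩⟩
    · obtain ⟨_, d, hd⟩ := fwd x hx
      exact ⟨d, hd⟩
    · rintro ⟨d, hd⟩
      have back : ∀ a b, Relation.EqvGen P.BlockAdj a b →
          ((F.symm (Sum.inr (i, a))).1 ∈ comp θ N x₀ ↔
            (F.symm (Sum.inr (i, b))).1 ∈ comp θ N x₀) := by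
        intro a b h
        induction h with
        | rel a b hab =>
          obtain ⟨s, g, hg, ⟨p, hp⟩, q, hq⟩ := hab
          have h1 : (P.str I).rel s fun k => P.lift i (g k) := ⟨i, g, hg, fun _ => rfl⟩
          have h2 : N.rel s fun k => (F.symm (P.lift i (g k))).1 := (hF.symm s _).2 h1
          have hp' : F.symm (P.lift i (g p)) = F.symm (Sum.inr (i, a)) := by rw [hp]; rfl
          have hq' : F.symm (P.lift i (g q)) = F.symm (Sum.inr (i, b)) := by rw [hq]; rfl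
          have hnh : ∀ d, (F.symm (Sum.inr (i, d))).1 ∉ hub θ N := fun d h => by
            have := hJ₀ _ h
            rw [F.apply_symm_apply] at this
            exact hi this
          constructor <;> intro hm
          · have := tuple_mem hc h2 (a := p) (by rw [hp']; exact hm) q
            rw [hq'] at this
            exact this.resolve_left (hnh b)
          · have := tuple_mem hc h2 (a := q) (by rw [hq']; exact hm) p
            rw [hp'] at this
            exact this.resolve_left (hnh a)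
        | refl a => rfl
        | symm _ _ _ ih => exact ih.symm
        | trans _ _ _ _ _ i₁ i₂ => exact i₁.trans i₂
      have h0 : (F.symm (Sum.inr (i, d₀))).1 ∈ comp θ N x₀ := by
        rw [← hFx, F.symm_apply_apply]; exact hx₀c
      have := (back d₀ d (hconn _ _)).1 h0
      rwa [← hd, F.symm_apply_apply] at this
  obtain ⟨i, hi, hic⟩ := copy c hc hcA hav
  obtain ⟨i', hi', hic'⟩ := copy c' hc' hc'A hav'
  let sw : I ≃ I := Equiv.swap i i'
  have hsw2 : ∀ y, P.map sw (P.map sw y) = y := fun y => by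
    rw [P.map_map, P.map_self (fun k => Equiv.swap_apply_self _ _ k)]
  let ψ₀ : A → A := fun x => F.symm (P.map sw (F x))
  let ψ : N.U → N.U := fun x => if h : x ∈ A then (ψ₀ ⟨x, h⟩ : N.U) else x
  have hψc : ∀ x, ∀ h : x ∈ A, (ψ x ∈ c' ↔ x ∈ c) := by
    intro x h
    simp only [ψ, dif_pos h]
    rw [hic' (ψ₀ ⟨x, h⟩), hic ⟨x, h⟩]
    simp only [ψ₀, F.apply_symm_apply]
    rcases F ⟨x, h⟩ with a | ⟨k, d⟩
    · simp [Pat.map]
    · simp only [Pat.map, Sum.map_inr, Prod.map_apply, id_eq, Sum.inr.injEq, Prod.mk.injEq]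
      constructor
      · rintro ⟨d', hk, rfl⟩
        exact ⟨d, by simpa [sw] using (Equiv.eq_symm_apply sw).2 hk, rfl⟩
      · rintro ⟨d', rfl, rfl⟩
        exact ⟨d, by simp [sw], rfl⟩
  have hψh : ∀ x ∈ hub θ N, ψ x = x := by
    intro x hx
    have h := hJ₀ ⟨x, hH hx⟩ hx
    simp only [ψ, dif_pos (hH hx), ψ₀]
    rcases hFx : F ⟨x, hH hx⟩ with a | ⟨k, d⟩
    · have : P.map sw (Sum.inl a) = Sum.inl a := rfl
      rw [this, ← hFx, F.symm_apply_apply]
    · rw [hFx] at h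
      have hk : sw k = k := Equiv.swap_apply_of_ne_of_ne (fun e => hi (e ▸ h)) (fun e => hi' (e ▸ h))
      have : P.map sw (Sum.inr (k, d)) = Sum.inr (k, d) :=
        congrArg (fun k => Sum.inr (k, d)) hk
      rw [this, ← hFx, F.symm_apply_apply]
  refine ⟨ψ, ⟨fun x hx => (hψc x (hcA hx)).2 hx, fun x hx y hy e => ?_, fun y hy => ?_⟩, hψh,
    fun s f hf => ?_⟩
  · simp only [ψ, dif_pos (hcA hx), dif_pos (hcA hy), ψ₀] at e
    have := F.symm.injective (Subtype.val_injective e)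
    have := congrArg (P.map sw) this
    rw [hsw2, hsw2] at this
    exact congrArg Subtype.val (F.injective this)
  · obtain ⟨x, hx⟩ : ∃ x : A, ψ₀ x = ⟨y, hc'A hy⟩ := ⟨F.symm (P.map sw (F ⟨y, hc'A hy⟩)), by
      simp only [ψ₀, F.apply_symm_apply, hsw2, F.symm_apply_apply]⟩
    have : ψ x.1 = y := by simp only [ψ, dif_pos x.2]; exact congrArg Subtype.val hx
    exact ⟨x.1, (hψc x.1 x.2).1 (this ▸ hy), this⟩
  · have hfA : ∀ a, f a ∈ A := fun a => (hf a).elim (fun h => hH h) fun h => hcA h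
    have e1 : (N.rel s fun a => ψ (f a)) ↔ (N.restr A).rel s fun a => ψ₀ ⟨f a, hfA a⟩ := by
      rw [show (fun a => ψ (f a)) = fun a => (ψ₀ ⟨f a, hfA a⟩ : N.U) from
        funext fun a => dif_pos (hfA a)]
    rw [e1, ← hF s]
    simp only [ψ₀, F.apply_symm_apply]
    refine ⟨fun h => ?_, fun h => P.rel_map sw ((hF s fun a => ⟨f a, hfA a⟩).2 h)⟩
    have := P.rel_map sw h
    simp only [hsw2] at this
    exact (hF s fun a => ⟨f a, hfA a⟩).1 this

theorem upward {θ κ κ' : Cardinal.{u}} (hθ : ℵ₀ ≤ θ) (hσ : #σ ≤ θ) (K : AEC σ ar θ)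
    (hκ : 2 ^ θ < κ) (hκ' : κ ≤ κ') (hcat : K.Categorical κ) {M : Str σ ar} (hM : K.mem M)
    (hMc : #M.U = κ) (hhub : FewHubs θ M) : K.Categorical κ' := by
  classical
  have hL : ℵ₀ ≤ (2 : Cardinal.{u}) ^ θ := hθ.trans (cantor _).le
  have hθL : θ ≤ 2 ^ θ := (cantor _).le
  have hinf : ℵ₀ ≤ κ := hL.trans hκ.le
  obtain ⟨c₀, hc₀, X, hX, hXc, hXt⟩ := exists_big_type hθ hσ hhub (compSet θ M) subset_rfl
    (hκ.trans_le (mk_le_compSet hθ hhub (hθL.trans_lt hκ) hMc.ge))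
  obtain ⟨T, hTC, hTD, hTconn, hTJ, hTDc, -⟩ := exists_twins hc₀ X
    (fun c hc => ⟨hX hc, hXt c hc⟩) (hub θ M) subset_rfl
    (fun c hc x hx => notMem_hub_of_mem (hX hc) hx)
    (nonempty_coe_sort.1 (mk_ne_zero_iff.1 (lt_of_le_of_lt (zero_le) hXc).ne'))
  obtain ⟨P, hPC, hPD, hPne, hPconn, hP⟩ := T.exists_pat_mem K hθL hL hM
    (hTC ▸ hhub.trans hθL) (hTDc ▸ (mk_comp_le hθ hc₀).trans hθL) (hTJ ▸ hXc)
  have hPconn := hPconn hTconn
  have huniq : ∀ N, K.mem N → #N.U = κ → ∃ e, IsIso M N e := fun N hN hNc =>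
    hcat.2 M N hM hN hMc hNc
  have hbig : ∀ {θ' : Cardinal.{u}}, κ ≤ θ' → 2 ^ θ ≤ θ' := fun h => hκ.le.trans h
  have key : ∀ N, K.mem N → #N.U = κ' → ∀ I : Type u, #I = κ' →
      ∃ E : N.U ≃ (P.str I).U, IsIso N (P.str I) E := by
    intro N hN hNc I hI
    have hNh : FewHubs θ N := fewHubs_of_large hθ K
      (Order.succ_le_of_lt (hθL.trans_lt hκ)) hhub huniq hN (hNc ▸ hκ')
    obtain ⟨d₀, hd₀, Y, hY, hYc, hYt⟩ := exists_big_type hθ hσ hNh (compSet θ N) subset_rfl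
      (hκ.trans_le (mk_le_compSet hθ hNh (hθL.trans_lt hκ) (hNc ▸ hκ')))
    obtain ⟨Cl, hCl⟩ : ∃ Cl : Set (Set N.U), Cl = {c | c ∈ compSet θ N ∧ SameType θ N d₀ c} :=
      ⟨_, rfl⟩
    have hrest : #({c | c ∈ compSet θ N ∧ ¬ SameType θ N d₀ c} : Set (Set N.U)) ≤ 2 ^ θ := by
      by_contra! hrest
      obtain ⟨d₁, hd₁, Z, hZ, hZc, hZt⟩ := exists_big_type hθ hσ hNh
        {c | c ∈ compSet θ N ∧ ¬ SameType θ N d₀ c} (fun c hc => hc.1) hrest
      obtain ⟨Y', hY', hY'c⟩ := le_mk_iff_exists_subset.1 (Order.succ_le_of_lt hYc)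
      obtain ⟨Z', hZ', hZ'c⟩ := le_mk_iff_exists_subset.1 (Order.succ_le_of_lt hZc)
      obtain ⟨seed, hseed⟩ := le_mk_iff_exists_set.1 (hNc ▸ hκ' : κ ≤ #N.U)
      let A₀ : Set N.U := hub θ N ∪ ((⋃ c : Y', (c : Set N.U)) ∪ ((⋃ c : Z', (c : Set N.U)) ∪ seed))
      have hsucc : Order.succ ((2 : Cardinal.{u}) ^ θ) ≤ κ := Order.succ_le_of_lt hκ
      have hA₀ : #A₀ ≤ κ := (mk_union_le _ _).trans (add_le_of_le hinf (hNh.trans (hθL.trans hκ.le))
        ((mk_union_le _ _).trans (add_le_of_le hinf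
          (mk_biUnion_le_of_le hinf _ id (hY'c ▸ hsucc)
            fun c hc => (mk_comp_le hθ (hY (hY' hc))).trans (hθL.trans hκ.le))
          ((mk_union_le _ _).trans (add_le_of_le hinf
            (mk_biUnion_le_of_le hinf _ id (hZ'c ▸ hsucc)
              fun c hc => (mk_comp_le hθ (hZ (hZ' hc)).1).trans (hθL.trans hκ.le))
            hseed.le)))))
      obtain ⟨A, hA₀A, hA, hAc⟩ := K.ls N A₀ hN
      have hAκ : #A = κ := le_antisymm (hAc.trans (add_le_of_le hinf hA₀ (hθL.trans hκ.le)))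
        (hseed ▸ mk_le_mk_of_subset fun x hx => hA₀A (Or.inr (Or.inr (Or.inr hx))))
      obtain ⟨F, hF⟩ := hcat.2 (N.restr A) (P.str κ.out) (K.strong_mem _ _ hA).2
        (hP _ ((mk_out κ).symm ▸ hκ.le)) hAκ
        ((mk_str hL hPC hPD ((mk_out κ).symm ▸ hκ.le)).trans (mk_out κ))
      have hHA : hub θ N ⊆ A := fun x hx => hA₀A (Or.inl hx)
      obtain ⟨J₀, hJ₀⟩ : ∃ J₀, J₀ = P.idx (F '' {x : A | (x : N.U) ∈ hub θ N}) := ⟨_, rfl⟩
      have hJ₀c : #J₀ ≤ 2 ^ θ := by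
        rw [hJ₀]
        exact (P.mk_idx_le _).trans (mk_image_le.trans
          ((mk_preimage_of_injective _ _ Subtype.val_injective).trans (hNh.trans hθL)))
      have pick : ∀ G : Set (Set N.U), G ⊆ compSet θ N → Order.succ (2 ^ θ) ≤ #G →
          ∃ c ∈ G, ∀ x : A, (x : N.U) ∈ c → F x ∉ P.part J₀ := by
        intro G hG hGc
        by_contra! h
        choose x hx hxJ using h
        have hle : #G ≤ #(F ⁻¹' P.part J₀) := mk_le_of_injective
          (f := fun c : G => (⟨x c.1 c.2, hxJ c.1 c.2⟩ : F ⁻¹' P.part J₀)) fun c c' e => by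
            have e' : x c.1 c.2 = x c'.1 c'.2 := congrArg Subtype.val e
            exact Subtype.ext (comp_unique (hG c.2) (hG c'.2) (hx c.1 c.2) (e' ▸ hx c'.1 c'.2))
        exact absurd (hGc.trans (hle.trans ((mk_preimage_of_injective _ _ F.injective).trans
          (P.mk_part_le hL hPC hPD hJ₀c)))) (not_le.2 (Order.lt_succ _))
      obtain ⟨c, hc, hcav⟩ := pick Y' (fun c hc => hY (hY' hc)) hY'c.ge
      obtain ⟨c', hc', hc'av⟩ := pick Z' (fun c hc => (hZ (hZ' hc)).1) hZ'c.ge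
      have hst := sameType_of_iso hPconn F hF hHA (J₀ := J₀)
        (fun x hx => hJ₀ ▸ P.subset_part_idx _ (mem_image_of_mem F hx))
        (hY (hY' hc)) (hZ (hZ' hc')).1
        (fun x hx => hA₀A (Or.inr (Or.inl (mem_iUnion.2 ⟨⟨c, hc⟩, hx⟩))))
        (fun x hx => hA₀A (Or.inr (Or.inr (Or.inl (mem_iUnion.2 ⟨⟨c', hc'⟩, hx⟩)))))
        hcav hc'av
      obtain ⟨ψ₁, hb₁, hh₁, hr₁⟩ := hYt c (hY' hc)
      obtain ⟨ψ₂, hb₂, hh₂, hr₂⟩ := hst
      refine (hZ (hZ' hc')).2 ⟨ψ₂ ∘ ψ₁, hb₂.comp hb₁, fun x hx => ?_, fun s f hf => ?_⟩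
      · simp [hh₁ x hx, hh₂ x hx]
      · refine (hr₂ s (fun a => ψ₁ (f a)) fun a => ?_).trans (hr₁ s f hf)
        rcases hf a with h | h
        · exact Or.inl (by rw [hh₁ _ h]; exact h)
        · exact Or.inr (hb₁.mapsTo h)
    obtain ⟨C, hC⟩ : ∃ C : Set N.U, C = (⋃₀ Cl)ᶜ := ⟨_, rfl⟩
    have hCle : #C ≤ 2 ^ θ := by
      refine (mk_le_mk_of_subset (t := hub θ N ∪
        ⋃ c : ({c | c ∈ compSet θ N ∧ ¬ SameType θ N d₀ c} : Set (Set N.U)), (c : Set N.U))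
        fun x hx => ?_).trans ((mk_union_le _ _).trans (add_le_of_le hL (hNh.trans hθL)
          (mk_biUnion_le_of_le hL _ id hrest fun c hc => (mk_comp_le hθ hc.1).trans hθL)))
      by_cases hxh : x ∈ hub θ N
      · exact Or.inl hxh
      · refine Or.inr (mem_iUnion.2 ⟨⟨comp θ N x, ⟨x, hxh, rfl⟩, fun hs => ?_⟩,
          Relation.EqvGen.refl x⟩)
        rw [hC] at hx
        exact hx ⟨comp θ N x, hCl ▸ ⟨⟨x, hxh, rfl⟩, hs⟩, Relation.EqvGen.refl x⟩
    have hYCl : Y ⊆ Cl := fun c hc => hCl ▸ ⟨hY hc, hYt c hc⟩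
    obtain ⟨T', hT'C, hT'D, -, hT'J, hT'Dc, hT'r⟩ := exists_twins hd₀ Cl
      (fun c hc => by rw [hCl] at hc; exact hc) C
      (fun x hx => by
        rw [hC]
        rintro ⟨c, hc, hxc⟩
        rw [hCl] at hc
        exact notMem_hub_of_mem hc.1 hxc hx)
      (fun c hc x hx hxC => by rw [hC] at hxC; exact hxC ⟨c, hc, hx⟩)
      ((nonempty_coe_sort.1 (mk_ne_zero_iff.1 (lt_of_le_of_lt (zero_le) hYc).ne')).mono hYCl)
    have hcover : ∀ x, x ∈ T'.C ∨ ∃ p, T'.emb p = x := fun x => by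
      by_cases hx : x ∈ C
      · exact Or.inl (hT'C ▸ hx)
      · rw [hC, notMem_compl_iff, ← hT'r] at hx
        exact Or.inr hx
    have hT'Cc : #T'.C ≤ 2 ^ θ := hT'C ▸ hCle
    have hT'Dle : #T'.D ≤ 2 ^ θ := hT'Dc ▸ (mk_comp_le hθ hd₀).trans hθL
    have hne : Nonempty T'.J := mk_ne_zero_iff.1 (by
      rw [hT'J]
      exact (lt_of_le_of_lt (zero_le) (hYc.trans_le (mk_le_mk_of_subset hYCl))).ne')
    let Φ : (T'.pat.str T'.J).U → N.U := T'.toM id
    have hΦ : Function.Bijective Φ := by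
      refine ⟨fun x y h => T'.toM_injOn (I := T'.J) (v := id) (K := Set.univ)
        Function.injective_id.injOn (by rcases x with c | ⟨i, d⟩ <;> trivial)
        (by rcases y with c | ⟨i, d⟩ <;> trivial) h, fun x => ?_⟩
      rcases hcover x with h | ⟨p, rfl⟩
      · exact ⟨Sum.inl ⟨x, h⟩, rfl⟩
      · exact ⟨Sum.inr p, rfl⟩
    let eΦ : (T'.pat.str T'.J).U ≃ N.U := Equiv.ofBijective Φ hΦ
    have heΦ : IsIso (T'.pat.str T'.J) N eΦ := fun s f =>
      T'.rel_toM_iff (v := id) (K := Set.univ) Function.injective_id.injOn univ_nonempty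
        fun a => by rcases f a with c | ⟨i, d⟩ <;> trivial
    have hκ'inf : ℵ₀ ≤ κ' := hinf.trans hκ'
    have hJbig : κ' ≤ #T'.J := by
      by_contra! h
      refine absurd ((mk_congr eΦ).trans hNc) (ne_of_lt ?_)
      simp only [mk_sum, mk_prod, lift_id]
      exact add_lt_of_lt hκ'inf (hT'Cc.trans_lt (hκ.trans_le hκ'))
        (mul_lt_of_lt hκ'inf h (hT'Dle.trans_lt (hκ.trans_le hκ')))
    have hJc : #T'.J = κ' := by
      refine le_antisymm ?_ hJbig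
      rw [← hNc, ← mk_congr eΦ]
      exact mk_le_of_injective (f := fun i => (Sum.inr (i, Classical.arbitrary T'.D) :
        (T'.pat.str T'.J).U)) fun i j h => congrArg Prod.fst (Sum.inr.inj h)
    let good : Set T'.J → Set N.U := fun J => Φ '' T'.pat.part J
    obtain ⟨J₁, hJ₁⟩ := le_mk_iff_exists_set.1 (hκ'.trans hJbig)
    have step : ∀ J : {J : Set T'.J // #J ≤ κ}, ∃ J' : {J : Set T'.J // #J ≤ κ}, ∃ B,
        good J.1 ⊆ B ∧ K.strong N B ∧ B ⊆ good J'.1 ∧ J.1 ⊆ J'.1 := by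
      intro J
      obtain ⟨B, h1, h2, h3⟩ := K.ls N (good J.1) hN
      have hBc : #B ≤ κ := h3.trans (add_le_of_le hinf (mk_image_le.trans
        (T'.pat.mk_part_le hinf (hT'Cc.trans hκ.le) (hT'Dle.trans hκ.le) J.2)) (hθL.trans hκ.le))
      refine ⟨⟨J.1 ∪ T'.pat.idx (eΦ.symm '' B), (mk_union_le _ _).trans (add_le_of_le hinf J.2
        ((T'.pat.mk_idx_le _).trans (mk_image_le.trans hBc)))⟩, B, h1, h2, fun x hx => ?_,
        subset_union_left⟩
      exact ⟨eΦ.symm x, T'.pat.part_mono subset_union_right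
        (T'.pat.subset_part_idx _ (mem_image_of_mem _ hx)), eΦ.apply_symm_apply x⟩
    choose next B hB1 hB2 hB3 hB4 using step
    let Jn : ℕ → {J : Set T'.J // #J ≤ κ} := fun n => next^[n] ⟨J₁, hJ₁.le⟩
    have hJn : ∀ n, Jn (n + 1) = next (Jn n) := fun n => by
      simp only [Jn, Function.iterate_succ_apply']
    obtain ⟨Jw, hJw⟩ : ∃ Jw : Set T'.J, Jw = ⋃ n : ULift.{u} ℕ, (Jn n.down).1 := ⟨_, rfl⟩
    have hgood : good Jw = ⋃ n : ULift.{u} ℕ, B (Jn n.down) := by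
      simp only [good, hJw, Pat.part_iUnion, image_iUnion]
      refine subset_antisymm (iUnion_subset fun n x hx => mem_iUnion.2 ⟨n, hB1 _ hx⟩)
        (iUnion_subset fun n x hx => mem_iUnion.2 ⟨⟨n.down + 1⟩, ?_⟩)
      rw [hJn]
      exact hB3 _ hx
    have hstrong : K.strong N (good Jw) := by
      rw [hgood]
      refine K.smooth N _ _ (fun a b hab => ?_) fun n => hB2 _
      have : Monotone fun n : ℕ => B (Jn n) := monotone_nat_of_le_succ fun n x hx =>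
        hB1 _ (by rw [hJn]; exact hB3 _ hx)
      exact this (ULift.down_le.2 hab)
    have hJwc : #Jw = κ := by
      rw [hJw]
      exact le_antisymm (mk_closure_le hinf (fun n => (Jn n).1) fun n => (Jn n).2)
        (hJ₁.ge.trans (mk_le_mk_of_subset fun i hi => mem_iUnion.2 ⟨⟨0⟩, hi⟩))
    let Ψ : (T'.pat.str Jw).U → (N.restr (good Jw)).U := fun x =>
      ⟨T'.toM Subtype.val x, T'.pat.map Subtype.val x, by
        rcases x with c | ⟨⟨i, hi⟩, d⟩
        · trivial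
        · exact hi, by rcases x with c | ⟨⟨i, hi⟩, d⟩ <;> rfl⟩
    have hΨ : Function.Bijective Ψ := by
      refine ⟨fun x y h => T'.toM_injOn (I := Jw) (v := Subtype.val) (K := Set.univ)
        Subtype.val_injective.injOn (by rcases x with c | ⟨i, d⟩ <;> trivial)
        (by rcases y with c | ⟨i, d⟩ <;> trivial) (congrArg Subtype.val h), ?_⟩
      rintro ⟨_, c | ⟨i, d⟩, hi, rfl⟩
      · exact ⟨Sum.inl c, rfl⟩
      · exact ⟨Sum.inr (⟨i, hi⟩, d), rfl⟩
    let eΨ := Equiv.ofBijective Ψ hΨ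
    have hne' : Nonempty Jw := mk_ne_zero_iff.1 (by
      rw [hJwc]; exact (lt_of_lt_of_le aleph0_pos hinf).ne')
    have heΨ : IsIso (T'.pat.str Jw) (N.restr (good Jw)) eΨ := fun s f =>
      T'.rel_toM_iff (v := Subtype.val) (K := Set.univ) Subtype.val_injective.injOn univ_nonempty
        fun a => by rcases f a with c | ⟨i, d⟩ <;> trivial
    have hAc : #(N.restr (good Jw)).U = κ := by
      rw [← mk_congr eΨ]
      exact (mk_str hL hT'Cc hT'Dle (hJwc ▸ hκ.le)).trans hJwc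
    obtain ⟨F, hF⟩ := hcat.2 (N.restr (good Jw)) (P.str κ.out) (K.strong_mem _ _ hstrong).2
      (hP _ ((mk_out κ).symm ▸ hκ.le)) hAc
      ((mk_str hL hPC hPD ((mk_out κ).symm ▸ hκ.le)).trans (mk_out κ))
    obtain ⟨E, hE⟩ := Pat.iso_stretch (P := T'.pat) (Q := P) (J := I) hL hT'Cc hT'Dle hPC hPD
      (hJwc ▸ hκ) (hI ▸ hκ.trans_le hκ') (eΨ.trans F) (heΨ.trans hF)
    obtain ⟨g⟩ := Cardinal.eq.1 (hJc.trans hI.symm)
    obtain ⟨G, hG⟩ := T'.pat.iso_congr g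
    exact ⟨eΦ.symm.trans (G.trans E), heΦ.symm.trans (hG.trans hE)⟩
  refine ⟨⟨P.str κ'.out, hP _ ((mk_out κ').symm ▸ hbig hκ'),
    (mk_str hL hPC hPD ((mk_out κ').symm ▸ hbig hκ')).trans (mk_out κ')⟩, ?_⟩
  intro N N' hN hN' hNc hN'c
  obtain ⟨E, hE⟩ := key N hN hNc κ'.out (mk_out κ')
  obtain ⟨E', hE'⟩ := key N' hN' hN'c κ'.out (mk_out κ')
  exact ⟨E.trans E'.symm, hE.trans hE'.symm⟩

end Vale.Agent.P307
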