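import Mathlib
import Vale.Agent.P307.Upward

/-!
Big models of finite tree depth contain twin families, so a categorical one has few hubs.
-/

namespace Vale.Agent.P307

open Cardinal Set

universe u

variable {σ : Type u} {ar : σ → ℕ}

/-- Many small sets with no relations between them outside a small core give twins. -/
theorem exists_twins_of_parts {M : Str σ ar} {θ : Cardinal.{u}} (hθ : ℵ₀ ≤ θ) (hσ : #σ ≤ θ)
    (C : Set M.U) (hCθ : #C ≤ θ) (G : Set (Set M.U)) (hGbig : 2 ^ θ < #G)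
    (hne : ∀ c ∈ G, c.Nonempty) (hsize : ∀ c ∈ G, #c ≤ θ) (hdisj : ∀ c ∈ G, ∀ x ∈ c, x ∉ C)
    (huni : ∀ c ∈ G, ∀ c' ∈ G, ∀ x ∈ c, x ∈ c' → c = c')
    (hmem : ∀ c ∈ G, ∀ x ∈ c, ∀ y, Adj M x y → y ∈ C ∪ c) :
    ∃ T : Twins M, #T.C ≤ θ ∧ #T.D ≤ θ ∧ Nonempty T.D ∧ θ < #T.J := by
  classical
  have tuple : ∀ (c : G) s f, M.rel s f → ∀ a : Fin (ar s), f a ∈ c.1 → ∀ b, f b ∈ C ∪ c.1 :=
    fun c s f hf a ha b => hmem c.1 c.2 _ ha _ ⟨s, f, hf, ⟨a, rfl⟩, b, rfl⟩
  have hj : ∀ c : G, ∃ j : M.U → θ.out, InjOn j c.1 := by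
    intro c
    obtain ⟨e⟩ := (Cardinal.le_def _ _).1 ((hsize c.1 c.2).trans (mk_out θ).ge)
    have : Nonempty θ.out := mk_ne_zero_iff.1 (by
      rw [mk_out]; exact (lt_of_lt_of_le aleph0_pos hθ).ne')
    refine ⟨fun x => if h : x ∈ c.1 then e ⟨x, h⟩ else Classical.arbitrary θ.out,
      fun x hx y hy h => ?_⟩
    simp only [dif_pos hx, dif_pos hy] at h
    exact congrArg Subtype.val (e.injective h)
  choose j hj using hj
  let enc : G → M.U → C ⊕ θ.out := fun c x =>
    if h : x ∈ C then Sum.inl ⟨x, h⟩ else Sum.inr (j c x)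
  let code : G → Set θ.out × Set (σ × List (C ⊕ θ.out)) := fun c => (j c '' c.1,
    {q | ∃ f : Fin (ar q.1) → M.U, (∀ a, f a ∈ C ∪ c.1) ∧ M.rel q.1 f ∧
      List.ofFn (fun a => enc c (f a)) = q.2})
  have hL : ℵ₀ ≤ (2 : Cardinal.{u}) ^ θ := hθ.trans (cantor _).le
  have hT : #(Set θ.out × Set (σ × List (C ⊕ θ.out))) ≤ 2 ^ θ := by
    have : Nonempty θ.out := mk_ne_zero_iff.1 (by
      rw [mk_out]; exact (lt_of_lt_of_le aleph0_pos hθ).ne')
    have : Infinite θ.out := infinite_iff.2 (hθ.trans (mk_out θ).ge)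
    rw [mk_prod, lift_id, lift_id, mk_set, mk_set, mk_out]
    refine (mul_le_mul' le_rfl (power_le_power_left two_ne_zero ?_)).trans (mul_eq_self hL).le
    rw [mk_prod, lift_id, lift_id, mk_list_eq_mk, mk_sum, lift_id, lift_id, mk_out]
    exact (mul_le_mul' hσ (add_le_of_le hθ hCθ le_rfl)).trans (mul_eq_self hθ).le
  obtain ⟨t, ht⟩ : ∃ t, θ < #(code ⁻¹' {t}) := by
    by_contra! h
    refine absurd hGbig (not_lt.2 ?_)
    calc #G = #(⋃ t, code ⁻¹' {t}) := by
          rw [show (⋃ t, code ⁻¹' {t}) = Set.univ from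
            eq_univ_of_forall fun c => mem_iUnion.2 ⟨_, rfl⟩, mk_univ]
      _ ≤ #(Set θ.out × Set (σ × List (C ⊕ θ.out))) * ⨆ t, #(code ⁻¹' {t}) := mk_iUnion_le _
      _ ≤ 2 ^ θ * 2 ^ θ := mul_le_mul' hT (ciSup_le' fun t => (h t).trans (cantor _).le)
      _ = 2 ^ θ := mul_eq_self hL
  obtain ⟨⟨c₀, hc₀⟩⟩ : Nonempty (code ⁻¹' {t}) :=
    mk_ne_zero_iff.1 (lt_of_le_of_lt (zero_le) ht).ne'
  let J := code ⁻¹' {t}
  have hψ : ∀ c : J, ∀ x : c₀.1, ∃ y ∈ c.1.1, j c.1 y = j c₀ x.1 := fun c x => by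
    have h : j c₀ x.1 ∈ j c₀ '' c₀.1 := mem_image_of_mem (j c₀) x.2
    have e1 : j c₀ '' c₀.1 = j c.1 '' c.1.1 := congrArg Prod.fst
      ((show code c₀ = t from hc₀).trans (show code c.1 = t from c.2).symm)
    rw [e1] at h
    exact h
  choose g hg1 hg2 using hψ
  have hinj : ∀ (d : G), InjOn (enc d) (C ∪ d.1) := by
    intro d x hx y hy h
    by_cases hx' : x ∈ C <;> by_cases hy' : y ∈ C <;> simp [enc, hx', hy'] at h
    · exact h
    · exact hj d ((or_iff_right hx').1 hx) ((or_iff_right hy').1 hy) h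
  have htrans : ∀ (c c' : J) s (h : Fin (ar s) → C ⊕ c₀.1),
      M.rel s (fun a => Sum.elim (fun z : C => (z : M.U)) (g c) (h a)) →
      M.rel s (fun a => Sum.elim (fun z : C => (z : M.U)) (g c') (h a)) := by
    intro c c' s h hr
    have hin : ∀ (c : J) a, Sum.elim (fun z : C => (z : M.U)) (g c) (h a) ∈ C ∪ c.1.1 :=
      fun c a => by
        rcases h a with z | x
        · exact Or.inl z.2
        · exact Or.inr (hg1 c x)
    have henc : ∀ (c : J) a, enc c.1 (Sum.elim (fun z : C => (z : M.U)) (g c) (h a)) =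
        Sum.map id (fun x : c₀.1 => j c₀ x.1) (h a) := fun c a => by
      rcases h a with z | x
      · simp [enc]
      · simp [enc, hdisj _ c.1.2 _ (hg1 c x), hg2 c x]
    have hmemq : (s, List.ofFn fun a => Sum.map id (fun x : c₀.1 => j c₀ x.1) (h a)) ∈
        (code c.1).2 :=
      ⟨fun a => Sum.elim (fun z : C => (z : M.U)) (g c) (h a), hin c, hr, by simp [henc c]⟩
    rw [show code c.1 = code c'.1 from (show code c.1 = t from c.2).trans
      (show code c'.1 = t from c'.2).symm] at hmemq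
    obtain ⟨f, hf, hfr, hfe⟩ := hmemq
    have e : f = fun a => Sum.elim (fun z : C => (z : M.U)) (g c') (h a) := funext fun a =>
      hinj c'.1 (hf a) (hin c' a) ((congrFun (List.ofFn_inj.1 hfe) a).trans (henc c' a).symm)
    rwa [← e]
  let T : Twins M :=
    { C := C
      J := J
      D := c₀.1
      emb := fun p => g p.1 p.2
      inj := by
        rintro ⟨c, x⟩ ⟨c', y⟩ h
        obtain rfl : c = c' := Subtype.ext (Subtype.ext (huni _ c.1.2 _ c'.1.2 _ (hg1 c x)
          ((show g c x = g c' y from h) ▸ hg1 c' y)))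
        refine congrArg (Prod.mk c) (Subtype.ext (hj c₀ x.2 y.2 ?_))
        rw [← hg2 c x, ← hg2 c y, show g c x = g c y from h]
      disj := fun p => hdisj _ p.1.1.2 _ (hg1 p.1 p.2)
      loc := by
        rintro s f h ⟨a, ⟨c, x⟩, ha⟩
        refine ⟨c, fun b => ?_⟩
        rcases tuple c.1 s f h a (ha ▸ hg1 c x) b with hb | hb
        · exact Or.inl hb
        · have h2 : j c.1 (f b) ∈ j c.1 '' c.1.1 := mem_image_of_mem _ hb
          have e1 : j c.1 '' c.1.1 = j c₀ '' c₀.1 := congrArg Prod.fst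
            ((show code c.1 = t from c.2).trans (show code c₀ = t from hc₀).symm)
          rw [e1] at h2
          obtain ⟨y, hy, e⟩ := h2
          exact Or.inr ⟨⟨y, hy⟩, hj c.1 hb (hg1 c ⟨y, hy⟩) (by rw [hg2 c ⟨y, hy⟩, e])⟩
      indisc := fun s c c' h hr => htrans c c' s h hr }
  exact ⟨T, hCθ, hsize _ c₀.2, (hne _ c₀.2).to_subtype, ht⟩

/-- Iterated exponentials of a cardinal. -/
def tower (θ : Cardinal.{u}) : ℕ → Cardinal.{u}
  | 0 => θ
  | n + 1 => 2 ^ tower θ n

theorem le_tower (θ : Cardinal.{u}) : ∀ n, θ ≤ tower θ n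
  | 0 => le_rfl
  | n + 1 => (le_tower θ n).trans (cantor _).le

theorem tower_mono (θ : Cardinal.{u}) : Monotone (tower θ) :=
  monotone_nat_of_le_succ fun _ => (cantor _).le

theorem exists_twins_of_treeDepth {M : Str σ ar} {θ₀ : Cardinal.{u}} (hθ₀ : ℵ₀ ≤ θ₀)
    (hσ : #σ ≤ θ₀) {n : ℕ} {p : M.U → List M.U}
    (hp1 : ∀ x, (p x).length ≤ n ∧ (p x).getLast? = some x)
    (hp2 : ∀ x, ∀ y ∈ p x, p y <+: p x) (hp3 : ∀ x y, Adj M x y → x ∈ p y ∨ y ∈ p x)
    (hM : tower θ₀ (n + 1) < #M.U) :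
    ∃ d ≤ n, ∃ T : Twins M,
      #T.C ≤ tower θ₀ d ∧ #T.D ≤ tower θ₀ d ∧ Nonempty T.D ∧ tower θ₀ d < #T.J := by
  classical
  have pinj : Function.Injective p := fun x y h =>
    Option.some.inj ((hp1 x).2.symm.trans ((congrArg List.getLast? h).trans (hp1 y).2))
  have main : ∀ d π, n ≤ List.length π + d →
      tower θ₀ d < #({x | π <+: p x ∧ p x ≠ π} : Set M.U) →
      ∃ e ≤ d, ∃ T : Twins M,
        #T.C ≤ tower θ₀ e ∧ #T.D ≤ tower θ₀ e ∧ Nonempty T.D ∧ tower θ₀ e < #T.J := by
    intro d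
    induction d with
    | zero =>
      intro π hπ hbig
      obtain ⟨⟨x, hx, hne⟩⟩ := mk_ne_zero_iff.1 (lt_of_le_of_lt (zero_le) hbig).ne'
      exact absurd (hx.eq_of_length_le ((hp1 x).1.trans (by simpa using hπ))).symm hne
    | succ d ih =>
      intro π hπ hbig
      obtain ⟨θ, hθ⟩ : ∃ θ, θ = tower θ₀ d := ⟨_, rfl⟩
      have hθinf : ℵ₀ ≤ θ := hθ ▸ hθ₀.trans (le_tower _ _)
      let ch : M.U → List M.U := fun x => (p x).take (π.length + 1)
      let sub : List M.U → Set M.U := fun c => {x | c <+: p x}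
      let R : Set M.U := {x | π <+: p x ∧ p x ≠ π}
      have hch : ∀ x ∈ R, π <+: ch x ∧ (ch x).length = π.length + 1 ∧ x ∈ sub (ch x) := by
        intro x hx
        have hlt : π.length < (p x).length := lt_of_le_of_ne hx.1.length_le
          fun h => hx.2 (hx.1.eq_of_length h).symm
        refine ⟨?_, by simp [ch]; omega, List.take_prefix _ _⟩
        exact List.prefix_of_prefix_length_le hx.1 (List.take_prefix _ _) (by rw [List.length_take]; omega)
      by_cases hlarge : ∃ x ∈ R, θ < #(sub (ch x))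
      · obtain ⟨x, hx, hxc⟩ := hlarge
        obtain ⟨h1, h2, -⟩ := hch x hx
        have : θ < #({y | ch x <+: p y ∧ p y ≠ ch x} : Set M.U) := by
          by_contra! h
          refine absurd hxc (not_lt.2 ?_)
          refine (mk_le_mk_of_subset (t := {y | ch x <+: p y ∧ p y ≠ ch x} ∪ {y | p y = ch x})
            fun y hy => ?_).trans ((mk_union_le _ _).trans (add_le_of_le hθinf h ?_))
          · by_cases e : p y = ch x
            · exact Or.inr e
            · exact Or.inl ⟨hy, e⟩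
          · have : ({y | p y = ch x} : Set M.U).Subsingleton := fun a ha b hb =>
              pinj (ha.trans hb.symm)
            exact this.finite.lt_aleph0.le.trans hθinf
        obtain ⟨e, he, T, hT⟩ := ih (ch x) (by omega) (hθ ▸ this)
        exact ⟨e, he.trans d.le_succ, T, hT⟩
      · push Not at hlarge
        let A : Set M.U := {y | p y <+: π}
        let G : Set (Set M.U) := (fun x => sub (ch x)) '' R
        have hA : #A ≤ θ := by
          have : A.Finite := by
            refine Set.Finite.of_finite_image (f := p) ?_ pinj.injOn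
            refine (π.inits.finite_toSet).subset ?_
            rintro _ ⟨y, hy, rfl⟩
            exact (List.mem_inits _ _).2 hy
          exact this.lt_aleph0.le.trans hθinf
        have hG : 2 ^ θ < #G := by
          by_contra! h
          refine absurd hbig (not_lt.2 ?_)
          have hL : ℵ₀ ≤ (2 : Cardinal.{u}) ^ θ := hθinf.trans (cantor _).le
          change #R ≤ 2 ^ tower θ₀ d
          rw [← hθ]
          refine (mk_le_mk_of_subset (t := ⋃ c : G, (c : Set M.U)) fun x hx =>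
            mem_iUnion.2 ⟨⟨_, x, hx, rfl⟩, (hch x hx).2.2⟩).trans ?_
          refine mk_biUnion_le_of_le hL G id h ?_
          rintro _ ⟨x, hx, rfl⟩
          exact (hlarge x hx).trans (cantor _).le
        refine ⟨d, d.le_succ, hθ ▸ exists_twins_of_parts hθinf
          (hσ.trans (hθ ▸ le_tower θ₀ d)) A hA G hG ?_ ?_ ?_ ?_ ?_⟩
        · rintro _ ⟨x, hx, rfl⟩
          exact ⟨x, (hch x hx).2.2⟩
        · rintro _ ⟨x, hx, rfl⟩
          exact hlarge x hx
        · rintro _ ⟨x, hx, rfl⟩ y hy hyA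
          obtain ⟨-, h2, -⟩ := hch x hx
          have h3 : (ch x).length ≤ (p y).length := List.IsPrefix.length_le hy
          have h4 : (p y).length ≤ π.length := List.IsPrefix.length_le hyA
          omega
        · rintro _ ⟨x, hx, rfl⟩ _ ⟨x', hx', rfl⟩ y hy hy'
          have e : ch x = ch x' := (List.prefix_of_prefix_length_le hy hy'
            (by rw [(hch x hx).2.1, (hch x' hx').2.1])).eq_of_length
              (by rw [(hch x hx).2.1, (hch x' hx').2.1])
          exact congrArg sub e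
        · rintro _ ⟨x, hx, rfl⟩ y hy w hyw
          obtain ⟨h1, h2, -⟩ := hch x hx
          rcases hp3 y w hyw with h | h
          · exact Or.inr (List.IsPrefix.trans hy (hp2 w y h))
          · rcases le_or_gt (ch x).length (p w).length with hl | hl
            · exact Or.inr (List.prefix_of_prefix_length_le hy (hp2 y w h) hl)
            · refine Or.inl (List.prefix_of_prefix_length_le
                (List.prefix_of_prefix_length_le (hp2 y w h) hy hl.le) h1 (by omega))
  obtain ⟨e, he, T, hT⟩ := main n [] (by simp) (by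
    have : ({x | [] <+: p x ∧ p x ≠ []} : Set M.U) = Set.univ := eq_univ_of_forall fun x =>
      ⟨List.nil_prefix, fun h => by simpa [h] using (hp1 x).2⟩
    rw [this, mk_univ]
    exact (tower_mono θ₀ n.le_succ).trans_lt hM)
  exact ⟨e, he, T, hT⟩

theorem fewHubs_str (P : Pat σ ar) {θ : Cardinal.{u}} (hθ : ℵ₀ ≤ θ) (hC : #P.Cc ≤ θ)
    (hD : #P.D ≤ θ) (I : Type u) : FewHubs θ (P.str I) := by
  refine (mk_le_mk_of_subset (t := range (Sum.inl : P.Cc → (P.str I).U)) fun x hx => ?_).trans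
    (mk_range_le.trans hC)
  rcases x with c | ⟨i, d⟩
  · exact ⟨c, rfl⟩
  · refine absurd hx (not_lt.2 ((mk_le_mk_of_subset (t := P.part ({i} : Set I)) ?_).trans
      (P.mk_part_le hθ hC hD ((mk_singleton i).trans_le (one_le_aleph0.trans hθ)))))
    rintro y ⟨s, f, ⟨j, g, -, hg⟩, ⟨a, ha⟩, b, hb⟩
    have h1 := (hg a).symm.trans ha
    have h2 := (hg b).symm.trans hb
    rcases hga : g a with c | d'
    · rw [hga] at h1; cases h1
    · rw [hga] at h1
      obtain rfl : j = i := congrArg Prod.fst (Sum.inr.inj h1)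
      subst h2
      rcases g b with c | d''
      · trivial
      · rfl

end Vale.Agent.P307
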