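import Mathlib
import Vale.Agent.P307.TreeDepth
import Vale.Agent.P307.Sum

/-!
A uniform threshold: there are only set many classes with a given Löwenheim–Skolem bound.
-/

namespace Vale.Agent.P307

open Cardinal Set

universe u

variable {σ : Type u} {ar : σ → ℕ} {W : Type u}

/-- The class has a good categoricity cardinal. -/
def GoodAt (lam : Cardinal.{u}) (K : AEC σ ar lam) (κ : Cardinal.{u}) : Prop :=
  K.Categorical κ ∧ ∃ M, K.mem M ∧ #M.U = κ ∧ (FewHubs lam M ∨ FiniteTreeDepth M)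

theorem AEC.categorical_congr {l : Cardinal.{u}} {K K' : AEC σ ar l}
    (h : ∀ M, K.mem M ↔ K'.mem M) (κ : Cardinal.{u}) : K.Categorical κ ↔ K'.Categorical κ := by
  simp only [AEC.Categorical, h]

/-- Raise the Löwenheim–Skolem bound. -/
def AEC.raise {l l' : Cardinal.{u}} (K : AEC σ ar l) (h : l ≤ l') : AEC σ ar l' :=
  { mem := K.mem
    strong := K.strong
    mem_iso := K.mem_iso
    strong_iso := K.strong_iso
    strong_mem := K.strong_mem
    strong_refl := K.strong_refl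
    strong_trans := K.strong_trans
    coherence := K.coherence
    chain := K.chain
    smooth := K.smooth
    ls := fun M A hM => by
      obtain ⟨B, h1, h2, h3⟩ := K.ls M A hM
      exact ⟨B, h1, h2, h3.trans (by gcongr)⟩ }

theorem good_upward {lam κ κ' : Cardinal.{u}} (hlam : ℵ₀ ≤ lam) (hσ : #σ ≤ lam)
    (K : AEC σ ar lam) (hκ : ∀ n, tower lam n < κ) (hκ' : κ ≤ κ') (h : GoodAt lam K κ) :
    K.Categorical κ' := by
  obtain ⟨hcat, M, hM, hMc, hgood⟩ := h
  rcases hgood with hf | ⟨n, p, h1, h2, h3⟩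
  · exact upward hlam hσ K (hκ 1) hκ' hcat hM hMc hf
  · obtain ⟨d, -, T, hC, hD, hne, hJ⟩ :=
      exists_twins_of_treeDepth hlam hσ h1 h2 h3 (hMc ▸ hκ (n + 1))
    have hθ : ℵ₀ ≤ tower lam d := hlam.trans (le_tower _ _)
    obtain ⟨P, hPC, hPD, hPne, -, hP⟩ :=
      T.exists_pat_mem K (le_tower _ _) hθ hM hC hD hJ
    have hI : tower lam d ≤ #κ.out := (mk_out κ).symm ▸ (hκ d).le
    have hc : #(P.str κ.out).U = κ := (mk_str hθ hPC hPD hI).trans (mk_out κ)
    exact upward hθ (hσ.trans (le_tower _ _)) (K.raise (le_tower lam d)) (hκ (d + 1)) hκ' hcat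
      (M := P.str κ.out) (hP _ hI) hc (fewHubs_str P hθ hPC hPD _)

section Relabel

variable {σ' : Type u} (e : σ' ≃ σ)

/-- Read a structure in a relabelled vocabulary. -/
def push (M : Str σ' (fun d => ar (e d))) : Str σ ar :=
  ⟨M.U, fun s f => ∃ d, ∃ h : e d = s,
    M.rel d fun a => f (Fin.cast (congrArg ar h) a)⟩

theorem push_rel (M : Str σ' (fun d => ar (e d))) (d : σ') (f : Fin (ar (e d)) → M.U) :
    (push e M).rel (e d) f ↔ M.rel d f := by
  constructor
  · rintro ⟨d', h, hr⟩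
    obtain rfl := e.injective h
    simpa using hr
  · exact fun h => ⟨d, rfl, by simpa using h⟩

/-- The relabelled structure. -/
def pull (N : Str σ ar) : Str σ' (fun d => ar (e d)) := ⟨N.U, fun d f => N.rel (e d) f⟩

theorem isIso_push {M N : Str σ' (fun d => ar (e d))} (E : M.U ≃ N.U) :
    IsIso (push e M) (push e N) E ↔ IsIso M N E := by
  constructor
  · intro h d f
    exact ((push_rel e N d _).symm.trans (h (e d) f)).trans (push_rel e M d f)
  · intro h s f
    obtain ⟨d, rfl⟩ := e.surjective s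
    exact ((push_rel e N d _).trans (h d f)).trans (push_rel e M d f).symm

theorem isIso_push_pull (N : Str σ ar) : IsIso (push e (pull e N)) N (Equiv.refl _) := by
  intro s f
  obtain ⟨d, rfl⟩ := e.surjective s
  exact (push_rel e (pull e N) d f).symm

/-- The relabelled class. -/
def AEC.relabel {l : Cardinal.{u}} (K : AEC σ ar l) : AEC σ' (fun d => ar (e d)) l :=
  { mem := fun M => K.mem (push e M)
    strong := fun M A => K.strong (push e M) A
    mem_iso := fun M N E hE h => K.mem_iso (push e M) (push e N) E ((isIso_push e E).2 hE) h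
    strong_iso := fun M N E hE A h =>
      K.strong_iso (push e M) (push e N) E ((isIso_push e E).2 hE) A h
    strong_mem := fun M A h => K.strong_mem (push e M) A h
    strong_refl := fun M h => K.strong_refl (push e M) h
    strong_trans := fun M A B hB h h' => K.strong_trans (push e M) A B hB h h'
    coherence := fun M A B hAB h h' => K.coherence (push e M) A B hAB h h'
    chain := fun M J _ _ _ A h1 h2 h3 h4 => K.chain (push e M) J A h1 h2 h3 h4
    smooth := fun M J _ _ _ A h1 h2 => K.smooth (push e M) J A h1 h2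
    ls := fun M A h => K.ls (push e M) A h }

theorem relabel_adj (N : Str σ ar) (x y : N.U) : Adj (pull e N) x y ↔ Adj N x y := by
  constructor
  · rintro ⟨d, f, hf, hi, hj⟩
    exact ⟨e d, f, hf, hi, hj⟩
  · rintro ⟨s, f, hf, hi, hj⟩
    obtain ⟨d, rfl⟩ := e.surjective s
    exact ⟨d, f, hf, hi, hj⟩

theorem categorical_relabel {l κ : Cardinal.{u}} (K : AEC σ ar l) :
    (K.relabel e).Categorical κ ↔ K.Categorical κ := by
  have hmem : ∀ N, K.mem N → (K.relabel e).mem (pull e N) := fun N h =>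
    K.mem_iso _ _ _ (isIso_push_pull e N).symm h
  constructor
  · rintro ⟨⟨M, hM, hMc⟩, hu⟩
    refine ⟨⟨push e M, hM, hMc⟩, fun N N' hN hN' hc hc' => ?_⟩
    obtain ⟨E, hE⟩ := hu _ _ (hmem N hN) (hmem N' hN') hc hc'
    exact ⟨_, ((isIso_push_pull e N).symm.trans ((isIso_push e E).2 hE)).trans
      (isIso_push_pull e N')⟩
  · rintro ⟨⟨M, hM, hMc⟩, hu⟩
    refine ⟨⟨pull e M, hmem M hM, hMc⟩, fun N N' hN hN' hc hc' => ?_⟩
    obtain ⟨E, hE⟩ := hu _ _ hN hN' hc hc'
    exact ⟨E, (isIso_push e E).1 hE⟩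

theorem goodAt_relabel {lam κ : Cardinal.{u}} (K : AEC σ ar lam) (h : GoodAt lam K κ) :
    GoodAt lam (K.relabel e) κ := by
  obtain ⟨hcat, M, hM, hMc, hg⟩ := h
  refine ⟨(categorical_relabel e K).2 hcat, pull e M,
    K.mem_iso _ _ _ (isIso_push_pull e M).symm hM, hMc, hg.imp (fun hf => ?_) ?_⟩
  · refine le_trans (le_of_eq ?_) hf
    refine mk_congr (Equiv.subtypeEquivRight fun x => ?_)
    have hx : #({y | Adj (pull e M) x y} : Set (pull e M).U) = #({y | Adj M x y} : Set M.U) :=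
      mk_congr (Equiv.subtypeEquivRight fun y => relabel_adj e M x y)
    exact iff_of_eq (congrArg (lam < ·) hx)
  · rintro ⟨n, p, h1, h2, h3⟩
    exact ⟨n, p, h1, h2, fun x y h => h3 x y ((relabel_adj e M x y).1 h)⟩

end Relabel

theorem exists_pre_iso (M : Str σ ar) (h : #M.U ≤ #W) :
    ∃ (p : Pre σ ar W) (e : p.str.U ≃ M.U), IsIso p.str M e := by
  obtain ⟨j⟩ := (Cardinal.le_def _ _).1 h
  let e : range j ≃ M.U := (Equiv.ofInjective j j.injective).symm
  exact ⟨⟨range j, fun s f => M.rel s fun a => e (f a)⟩, e, fun s f => Iff.rfl⟩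

theorem mem_iff_of_codes {lam : Cardinal.{u}} (hlam : ℵ₀ ≤ lam) (hW : #W = lam)
    (K K' : AEC σ ar lam) (h1 : ∀ p : Pre σ ar W, K.mem p.str ↔ K'.mem p.str)
    (h2 : ∀ (p : Pre σ ar W) (A : Set p.str.U), K.strong p.str A ↔ K'.strong p.str A)
    (M : Str σ ar) : K.mem M ↔ K'.mem M := by
  suffices ∀ K K' : AEC σ ar lam, (∀ p : Pre σ ar W, K.mem p.str ↔ K'.mem p.str) →
      (∀ (p : Pre σ ar W) (A : Set p.str.U), K.strong p.str A ↔ K'.strong p.str A) →
      K.mem M → K'.mem M from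
    ⟨this K K' h1 h2, this K' K (fun p => (h1 p).symm) fun p A => (h2 p A).symm⟩
  intro K K' h1 h2 hM
  refine AEC.mem_of_agree K K' hlam le_rfl (fun N hN h => ?_) (fun N A hN h => ?_) hM
  · obtain ⟨p, e, he⟩ := exists_pre_iso (W := W) N (hN.trans hW.ge)
    exact K'.mem_iso _ _ e he ((h1 p).1 (K.mem_iso _ _ e.symm he.symm h))
  · obtain ⟨p, e, he⟩ := exists_pre_iso (W := W) N (hN.trans hW.ge)
    have h3 := K'.strong_iso _ _ e he _ ((h2 p _).1 (K.strong_iso _ _ e.symm he.symm _ h))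
    rwa [Equiv.image_symm_eq_preimage, Equiv.image_preimage] at h3

theorem exists_uniform (lam : Cardinal.{u}) (hlam : ℵ₀ ≤ lam) :
    ∃ μ : Cardinal.{u}, lam ≤ μ ∧ ∀ (σ : Type u) (ar : σ → ℕ) (K : AEC σ ar lam), #σ ≤ lam →
      ∀ κ, μ ≤ κ → GoodAt lam K κ → ∀ κ', μ ≤ κ' → K.Categorical κ' := by
  obtain ⟨W, hW⟩ : ∃ W : Type u, #W = lam := ⟨lam.out, mk_out lam⟩
  obtain ⟨base, hbase⟩ : ∃ base, base = Order.succ (⨆ n : ℕ, tower lam n) := ⟨_, rfl⟩
  let Code : Type u := Σ D : Set W, Σ arD : D → ℕ,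
    Set (Pre D arD W) × Set (Σ p : Pre D arD W, Set p.str.U)
  let Sc : Code → Set Cardinal.{u} := fun c => {κ | base ≤ κ ∧
    ∃ K : AEC c.1 c.2.1 lam, (∀ p, p ∈ c.2.2.1 ↔ K.mem p.str) ∧
      (∀ q, q ∈ c.2.2.2 ↔ K.strong q.1.str q.2) ∧ GoodAt lam K κ}
  obtain ⟨μ, hμ⟩ : ∃ μ, μ = max base (⨆ c : Code, sInf (Sc c)) := ⟨_, rfl⟩
  have hbd : BddAbove (range fun c : Code => sInf (Sc c)) := Cardinal.bddAbove_of_small
  have htower : ∀ n, tower lam n < base := fun n => hbase ▸ Order.lt_succ_of_le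
    (le_ciSup (Cardinal.bddAbove_of_small (s := range fun n : ℕ => tower lam n)) n)
  refine ⟨μ, ((htower 0).le.trans (hμ ▸ le_max_left _ _)), ?_⟩
  intro σ ar K hσ κ hκ hgood κ' hκ'
  obtain ⟨j⟩ := (Cardinal.le_def _ _).1 (hσ.trans hW.ge)
  let e : range j ≃ σ := (Equiv.ofInjective j j.injective).symm
  let c : Code := ⟨range j, fun d => ar (e d),
    {p | (K.relabel e).mem p.str}, {q | (K.relabel e).strong q.1.str q.2}⟩
  have hne : κ ∈ Sc c :=
    ⟨(hμ ▸ le_max_left _ _ : base ≤ μ).trans hκ, K.relabel e, fun _ => Iff.rfl, fun _ => Iff.rfl,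
      goodAt_relabel e K hgood⟩
  obtain ⟨hb, K', h1, h2, hgood'⟩ := csInf_mem (s := Sc c) ⟨κ, hne⟩
  have hle : sInf (Sc c) ≤ μ := hμ ▸ (le_ciSup hbd c).trans (le_max_right _ _)
  have hcat := good_upward hlam ((mk_set_le _).trans hW.le) K'
    (fun n => (htower n).trans_le hb) (hle.trans hκ') hgood'
  have hiff := mem_iff_of_codes hlam hW (K.relabel e) K' (fun p => h1 p) (fun p A => h2 ⟨p, A⟩)
  exact (categorical_relabel e K).1 ((AEC.categorical_congr hiff κ').2 hcat)

end Vale.Agent.P307
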